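import Vale.Agent.P133.NucDimGen.Specs
import Vale.Agent.P133.NucDim.Absorb

/-!
P133, finite nuclear dimension without unit: a central dimension drop modulo the annihilator of an
ideal turns weak pure infiniteness of the ideal into strong pure infiniteness.

As in the unital case, with every relation multiplied by a constant from the ideal.
-/

noncomputable section

namespace Vale.Agent.P133.NucDimGen

open Filter Topology BoundedContinuousFunction Vale.Agent.P101 Vale.Agent.P133.FinDim
open Vale.Agent.P133.NucDim (norm_sub_cut_self_le row_conj_le row_cross_le centSub_commute)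

universe u

variable {B : Type u} [CStarAlgebra B]

/-- A constant sequence in the quotient. -/
abbrev constQ (a : B) : SeqQuot B atTop := seqMk B atTop (const ℕ a)

/-- A copy of the drop commuting with the constants and with given sequences. -/
theorem exists_slot {A₀ : Set B} (hB : HasDropModAnn B A₀) (S : Finset (SeqQuot B atTop)) :
    ∃ y v : SeqQuot B atTop,
      y ∈ StarSubalgebra.centralizer ℂ (Set.range (constQ (B := B)) ∪ ↑S) ∧
      v ∈ StarSubalgebra.centralizer ℂ (Set.range (constQ (B := B)) ∪ ↑S) ∧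
      ∀ z ∈ constQ '' A₀, y * y * z = 0 ∧
        star v * v * z = (1 - star y * y - y * star y) * z ∧ y * star y * v * z = v * z := by
  classical
  obtain ⟨y, v, hy, hv, hrel⟩ := hB
  choose R hR using seqMk_surjective (A := B) (F := atTop)
  have hev : ∀ n : ℕ, ∀ᶠ k in atTop, n ≤ k ∧ ∀ g ∈ S,
      ‖R g n * y k - y k * R g n‖ ≤ 1 / (n + 1 : ℝ) ∧
      ‖star (R g n) * y k - y k * star (R g n)‖ ≤ 1 / (n + 1 : ℝ) ∧
      ‖R g n * v k - v k * R g n‖ ≤ 1 / (n + 1 : ℝ) ∧
      ‖star (R g n) * v k - v k * star (R g n)‖ ≤ 1 / (n + 1 : ℝ) := by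
    intro n
    refine (eventually_ge_atTop n).and ((eventually_all_finset S).2 fun g _ => ?_)
    have hpos : (0 : ℝ) < 1 / (n + 1 : ℝ) := by positivity
    exact ((hy.2 _).eventually_le_const hpos).and (((hy.2 _).eventually_le_const hpos).and
      (((hv.2 _).eventually_le_const hpos).and ((hv.2 _).eventually_le_const hpos)))
  choose k hk hcom using fun n => (hev n).exists
  have hk' : Tendsto k atTop atTop := tendsto_atTop_mono hk tendsto_id
  obtain ⟨⟨Cy, hCy⟩, hyc⟩ := hy
  obtain ⟨⟨Cv, hCv⟩, hvc⟩ := hv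
  let Y : ℕ →ᵇ B := .ofNormedAddCommGroup (y ∘ k) continuous_of_discreteTopology Cy fun n => hCy _
  let V : ℕ →ᵇ B := .ofNormedAddCommGroup (v ∘ k) continuous_of_discreteTopology Cv fun n => hCv _
  have hz : ∀ (z : ℕ →ᵇ B) (w : ℕ → B) (_ : ∀ n, z n = w (k n))
      (_ : ∀ a, Tendsto (fun n => ‖a * w n - w n * a‖) atTop (𝓝 0))
      (_ : ∀ n, ∀ g ∈ S, ‖R g n * w (k n) - w (k n) * R g n‖ ≤ 1 / (n + 1 : ℝ) ∧
        ‖star (R g n) * w (k n) - w (k n) * star (R g n)‖ ≤ 1 / (n + 1 : ℝ)),
      seqMk B atTop z ∈ StarSubalgebra.centralizer ℂ (Set.range (constQ (B := B)) ∪ ↑S) := by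
    intro z w hzw hwc hwS
    refine (StarSubalgebra.mem_centralizer_iff ℂ).2 ?_
    rintro g (⟨a, rfl⟩ | hg)
    · simp only [constQ, ← map_star, ← map_mul, seqMk_eq_iff]
      constructor
      · refine ((hwc a).comp hk').congr fun n => ?_
        simp [hzw]
      · refine ((hwc (star a)).comp hk').congr fun n => ?_
        simp [hzw]
    · rw [← hR g]
      simp only [← map_star, ← map_mul, seqMk_eq_iff]
      constructor
      · refine squeeze_zero (fun n => norm_nonneg _) (fun n => ?_)
          tendsto_one_div_add_atTop_nhds_zero_nat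
        simpa [hzw] using (hwS n g hg).1
      · refine squeeze_zero (fun n => norm_nonneg _) (fun n => ?_)
          tendsto_one_div_add_atTop_nhds_zero_nat
        simpa [hzw] using (hwS n g hg).2
  refine ⟨seqMk B atTop Y, seqMk B atTop V,
    hz Y y (fun n => rfl) hyc fun n g hg => ⟨(hcom n g hg).1, (hcom n g hg).2.1⟩,
    hz V v (fun n => rfl) hvc fun n g hg => ⟨(hcom n g hg).2.2.1, (hcom n g hg).2.2.2⟩, ?_⟩
  rintro _ ⟨a, ha, rfl⟩
  refine ⟨?_, ?_, ?_⟩
  · simp only [constQ, ← map_mul, seqMk_eq_zero]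
    exact ((hrel a ha).1.comp hk').congr fun n => rfl
  · rw [← map_one (seqMk B atTop)]
    simp only [constQ, ← map_star, ← map_mul, ← map_sub, seqMk_eq_iff]
    refine ((hrel a ha).2.1.comp hk').congr fun n => ?_
    simp [sub_mul, Y, V, mul_assoc]
  · simp only [constQ, ← map_star, ← map_mul, seqMk_eq_iff]
    refine ((hrel a ha).2.2.comp hk').congr fun n => ?_
    simp [sub_mul, Y, V, mul_assoc]

/-- One copy, with relations holding after multiplication by `Z`. -/
theorem slot_data {P : Type u} [CStarAlgebra P] (K : StarSubalgebra ℂ P) [IsClosed (K : Set P)]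
    (Z : Set P) (hZs : ∀ z ∈ Z, star z ∈ Z) (hKZ : ∀ x ∈ K, ∀ z ∈ Z, Commute x z)
    {y v : P} (hy : y ∈ K) (hv : v ∈ K)
    (hrel : ∀ z ∈ Z, y * y * z = 0 ∧
      star v * v * z = (1 - star y * y - y * star y) * z ∧ y * star y * v * z = v * z) :
    ∃ (U : Fin 2 → P) (D C : Fin 3 → P), (∀ c, U c ∈ K) ∧ (∀ i, D i ∈ K) ∧ (∀ i, C i ∈ K) ∧
      ∀ z ∈ Z, (∀ c c', star (U c) * U c' * z = (if c = c' then star y * y else 0) * z) ∧
        (∑ i, star (D i) * (star y * y) * C i) * z = z := by
  let _ : PartialOrder P := CStarAlgebra.spectralOrder P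
  have _ : StarOrderedRing P := CStarAlgebra.spectralOrderedRing P
  set e := star y * y with he
  set f := y * star y with hf
  have heK : e ∈ K := mul_mem (star_mem hy) hy
  have hfK : f ∈ K := mul_mem hy (star_mem hy)
  have hes : IsSelfAdjoint e := IsSelfAdjoint.star_mul_self y
  have hfs : IsSelfAdjoint f := IsSelfAdjoint.mul_star_self y
  set s := cfc Real.sqrt e with hs
  have hsK : s ∈ K := cfc_mem (𝕜' := ℂ) Real.sqrt heK
  have hss : star s = s := (cfc_predicate Real.sqrt e : IsSelfAdjoint s).star_eq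
  have hs2 : s * s = e := by
    rw [hs, ← cfc_mul Real.sqrt Real.sqrt e (by fun_prop) (by fun_prop)]
    conv_rhs => rw [← cfc_id' ℝ e hes]
    exact cfc_congr fun t ht =>
      Real.mul_self_sqrt (spectrum_star_mul_self_nonneg (b := y) t ht)
  have hsy : ∀ z ∈ Z, s * y * z = 0 := fun z hz => by
    rw [← CStarRing.star_mul_self_eq_zero_iff]
    calc star (s * y * z) * (s * y * z) = star z * (star y * (s * s) * y * z) := by
          rw [star_mul, star_mul, hss]; simp only [mul_assoc]
      _ = star z * star y * star y * (y * y * z) := by rw [hs2, he]; simp only [mul_assoc]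
      _ = 0 := by rw [(hrel z hz).1, mul_zero]
  have hys : ∀ z ∈ Z, star y * s * z = 0 := fun z hz => by
    have h := congrArg star (hsy _ (hZs z hz))
    rw [star_mul, star_mul, star_star, hss, star_zero] at h
    rw [(hKZ _ (mul_mem (star_mem hy) hsK) z hz).eq]
    exact h
  have hne : ∀ t : ℝ, 1 - t + t * t ≠ 0 := fun t => by nlinarith [sq_nonneg (2 * t - 1)]
  set R := cfc (fun t : ℝ => (1 - t + t * t)⁻¹) f with hR
  have hRK : R ∈ K := cfc_mem (𝕜' := ℂ) _ hfK
  have hTR : (1 - f + f * f) * R = 1 := by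
    have hT : 1 - f + f * f = cfc (fun t : ℝ => 1 - t + t * t) f := by
      rw [cfc_add f (fun t : ℝ => 1 - t) (fun t : ℝ => t * t) (by fun_prop) (by fun_prop),
        cfc_sub (fun _ : ℝ => 1) (fun t : ℝ => t) f (by fun_prop) (by fun_prop),
        cfc_mul (fun t : ℝ => t) (fun t : ℝ => t) f (by fun_prop) (by fun_prop),
        cfc_const_one ℝ f hfs, cfc_id' ℝ f hfs]
    rw [hT, hR, ← cfc_mul (fun t : ℝ => 1 - t + t * t) (fun t : ℝ => (1 - t + t * t)⁻¹) f
      (by fun_prop) ((by fun_prop : Continuous fun t : ℝ => 1 - t + t * t).inv₀ hne).continuousOn,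
      ← cfc_const_one ℝ f hfs]
    exact cfc_congr fun t _ => mul_inv_cancel₀ (hne t)
  refine ⟨![s, y], ![1, star y, star y * v], ![R, star y * R, star y * v * R], ?_, ?_, ?_,
    fun z hz => ⟨?_, ?_⟩⟩
  · intro c; fin_cases c <;> simp [hsK, hy]
  · intro i; fin_cases i <;> simp [one_mem, star_mem hy, mul_mem (star_mem hy) hv]
  · intro i
    fin_cases i <;> simp [hRK, mul_mem (star_mem hy) hRK, mul_mem (mul_mem (star_mem hy) hv) hRK]
  · intro c c'
    fin_cases c <;> fin_cases c' <;> simp [hss, hs2, hsy z hz, hys z hz, ← he]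
  · simp only [Fin.sum_univ_three, Matrix.cons_val_zero, Matrix.cons_val_one, Matrix.cons_val]
    have hRz : R * z = z * R := (hKZ R hRK z hz).eq
    have hfv : f * (v * z) = v * z := by rw [← mul_assoc]; exact (hrel z hz).2.2
    have e1 : star (star y) * e * (star y * R) * z = f * f * z * R := by
      rw [star_star, he, hf]; simp only [mul_assoc, hRz]
    have e2 : star (star y * v) * e * (star y * v * R) * z = star v * v * z * R := by
      calc star (star y * v) * e * (star y * v * R) * z = star v * (f * (f * (v * z))) * R := by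
            rw [star_mul, star_star, he, hf]; simp only [mul_assoc, hRz]
        _ = star v * v * z * R := by rw [hfv, hfv]; simp only [mul_assoc]
    have e0 : star (1 : P) * e * R * z = e * z * R := by
      rw [star_one, one_mul, mul_assoc, hRz, ← mul_assoc]
    rw [add_mul, add_mul, e0, e1, e2, (hrel z hz).2.1, ← add_mul, ← add_mul, ← add_mul, ← add_mul,
      mul_assoc, ← hRz, ← mul_assoc, show e + f * f + (1 - e - f) = 1 - f + f * f by abel, hTR,
      one_mul]

/-- Arbitrarily many elements with orthogonal ranges and one source generating the unit, modulo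
the annihilator of the ideal. -/
theorem exists_matrix_row {A₀ : Set B} (hA₀s : ∀ a ∈ A₀, star a ∈ A₀)
    (hB : HasDropModAnn B A₀) : ∀ L : ℕ,
    ∃ (U : Fin (2 ^ L) → SeqQuot B atTop) (e : SeqQuot B atTop) (m : ℕ)
      (D C : Fin m → SeqQuot B atTop),
      ((∀ w, U w ∈ centSub B atTop) ∧ e ∈ centSub B atTop ∧ (∀ i, D i ∈ centSub B atTop) ∧
        ∀ i, C i ∈ centSub B atTop) ∧
      ∀ z ∈ constQ '' A₀, (∀ w w', star (U w) * U w' * z = (if w = w' then e else 0) * z) ∧
        (∑ i, star (D i) * e * C i) * z = z := by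
  classical
  intro L
  induction L with
  | zero =>
    refine ⟨fun _ => 1, 1, 1, fun _ => 1, fun _ => 1,
      ⟨fun _ => one_mem _, one_mem _, fun _ => one_mem _, fun _ => one_mem _⟩,
      fun z _ => ⟨fun w w' => ?_, by simp⟩⟩
    have : Subsingleton (Fin (2 ^ 0)) := by rw [pow_zero]; infer_instance
    simp [Subsingleton.elim w w']
  | succ L ih =>
    obtain ⟨U, e, m, D, C, ⟨hU, he, hD, hC⟩, hrow⟩ := ih
    set S : Finset (SeqQuot B atTop) :=
      insert e (Finset.univ.image U ∪ Finset.univ.image D ∪ Finset.univ.image C) with hS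
    set K := StarSubalgebra.centralizer ℂ (Set.range (constQ (B := B)) ∪ ↑S) with hK
    have : IsClosed (K : Set (SeqQuot B atTop)) := Vale.Agent.P101.isClosed_centralizer _
    obtain ⟨y, v, hy, hv, hrel⟩ := exists_slot hB S
    have hKZ : ∀ x ∈ K, ∀ z ∈ constQ '' A₀, Commute x z := by
      rintro x hx _ ⟨a, -, rfl⟩
      exact (starCommute_of_mem_centralizer hx (Or.inl ⟨a, rfl⟩)).1
    obtain ⟨U', D', C', hU', hD', hC', hrow'⟩ := slot_data K (constQ '' A₀)
      (by rintro _ ⟨a, ha, rfl⟩; exact ⟨star a, hA₀s a ha, by simp only [constQ, ← map_star]; rfl⟩)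
      hKZ hy hv hrel
    have hKc : ∀ z ∈ K, z ∈ centSub B atTop := fun z hz =>
      (StarSubalgebra.mem_centralizer_iff ℂ).2 fun g hg =>
        (StarSubalgebra.mem_centralizer_iff ℂ).1 hz g (Or.inl hg)
    have hcom : ∀ z ∈ K, ∀ g ∈ S, StarCommute z g := fun z hz g hg =>
      starCommute_of_mem_centralizer hz (Or.inr (Finset.mem_coe.2 hg))
    have mU : ∀ w, U w ∈ S := fun w => by simp [hS]
    have mD : ∀ i, D i ∈ S := fun i => by simp [hS]
    have mC : ∀ i, C i ∈ S := fun i => by simp [hS]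
    have me : e ∈ S := by simp [hS]
    set e' := star y * y with he'
    have he'K : e' ∈ K := mul_mem (star_mem hy) hy
    let σ : Fin (2 ^ (L + 1)) ≃ Fin (2 ^ L) × Fin 2 :=
      (finCongr (pow_succ 2 L)).trans finProdFinEquiv.symm
    let τ : Fin (m * 3) ≃ Fin m × Fin 3 := finProdFinEquiv.symm
    refine ⟨fun w => U (σ w).1 * U' (σ w).2, e * e', m * 3,
      fun i => D (τ i).1 * D' (τ i).2, fun i => C (τ i).1 * C' (τ i).2,
      ⟨fun w => mul_mem (hU _) (hKc _ (hU' _)), mul_mem he (hKc _ he'K),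
        fun i => mul_mem (hD _) (hKc _ (hD' _)), fun i => mul_mem (hC _) (hKc _ (hC' _))⟩,
      fun z hz => ⟨fun w w' => ?_, ?_⟩⟩
    · obtain ⟨hUU, -⟩ := hrow z hz
      obtain ⟨hUU', -⟩ := hrow' z hz
      have h1 : Commute (star (U (σ w).1) * U (σ w').1) (star (U' (σ w).2)) := by
        have c1 := hcom _ (star_mem (hU' (σ w).2)) _ (mU (σ w).1)
        have c2 := hcom _ (star_mem (hU' (σ w).2)) _ (mU (σ w').1)
        exact (c1.2.symm.mul_left c2.1.symm)
      calc star (U (σ w).1 * U' (σ w).2) * (U (σ w').1 * U' (σ w').2) * z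
          = star (U' (σ w).2) * (star (U (σ w).1) * U (σ w').1) * U' (σ w').2 * z := by
            rw [star_mul]; simp only [mul_assoc]
        _ = star (U (σ w).1) * U (σ w').1 * (star (U' (σ w).2) * U' (σ w').2 * z) := by
            rw [← h1.eq]; simp only [mul_assoc]
        _ = star (U (σ w).1) * U (σ w').1 *
              ((if (σ w).2 = (σ w').2 then e' else 0) * z) := by rw [hUU']
        _ = _ := by
          by_cases h2 : (σ w).2 = (σ w').2
          · rw [if_pos h2, (hKZ e' he'K z hz).eq, ← mul_assoc, hUU, mul_assoc,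
              ← (hKZ e' he'K z hz).eq, ← mul_assoc]
            congr 1
            by_cases h : w = w'
            · simp [h]
            · have : (σ w).1 ≠ (σ w').1 := fun h' => h (σ.injective (Prod.ext h' h2))
              simp [h, this]
          · rw [if_neg h2, if_neg (fun h => h2 (by rw [h])), zero_mul, mul_zero]
    · obtain ⟨-, hDC⟩ := hrow z hz
      obtain ⟨-, hDC'⟩ := hrow' z hz
      calc (∑ i, star (D (τ i).1 * D' (τ i).2) * (e * e') * (C (τ i).1 * C' (τ i).2)) * z
          = (∑ p : Fin m × Fin 3, star (D p.1 * D' p.2) * (e * e') * (C p.1 * C' p.2)) * z := by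
            rw [τ.sum_comp fun p : Fin m × Fin 3 =>
              star (D p.1 * D' p.2) * (e * e') * (C p.1 * C' p.2)]
        _ = (∑ i, ∑ j, star (D i) * e * C i * (star (D' j) * e' * C' j)) * z := by
            rw [Fintype.sum_prod_type]
            congr 1
            refine Finset.sum_congr rfl fun i _ => Finset.sum_congr rfl fun j _ => ?_
            have c1 : Commute (star (D' j)) (star (D i) * e * C i) :=
              ((hcom _ (star_mem (hD' j)) _ (mD i)).2.mul_right
                (hcom _ (star_mem (hD' j)) _ me).1).mul_right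
                (hcom _ (star_mem (hD' j)) _ (mC i)).1
            have c2 : Commute e' (C i) := (hcom _ he'K _ (mC i)).1
            calc star (D i * D' j) * (e * e') * (C i * C' j)
                = star (D' j) * (star (D i) * e) * (e' * C i) * C' j := by
                  rw [star_mul]; simp only [mul_assoc]
              _ = star (D' j) * (star (D i) * e * C i) * (e' * C' j) := by
                  rw [c2.eq]; simp only [mul_assoc]
              _ = _ := by rw [c1.eq]; simp only [mul_assoc]
        _ = (∑ i, star (D i) * e * C i) * ((∑ j, star (D' j) * e' * C' j) * z) := by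
            simp only [Finset.sum_mul, Finset.mul_sum, mul_assoc]
            exact Finset.sum_comm
        _ = z := by rw [hDC', hDC]

variable [PartialOrder B] [StarOrderedRing B]

/-- Uniformly bounded comparisons inside the ideal. -/
theorem compare_eventually {A₀ : Set B} (hA₀ : IsClosedIdeal A₀) {n : ℕ} (hn : 1 ≤ n)
    (hP : AmpPI A₀ n) {f : B} (hfA : f ∈ A₀) (hf : 0 ≤ f) (a : ℕ →ᵇ B)
    (haA : ∀ i, a i ∈ A₀) (ha : ∀ i, 0 ≤ a i) {m : ℕ} (D C : Fin m → ℕ →ᵇ B)
    (hlim : Tendsto (fun i => ‖∑ j, star (D j i) * a i * C j i - f‖) atTop (𝓝 0)) {ε : ℝ}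
    (hε : 0 < ε) :
    ∃ K : ℝ, 0 ≤ K ∧ ∀ᶠ i in atTop, ∃ u : Fin n → B, (∀ p, u p ∈ A₀ ∧ ‖u p‖ ≤ K) ∧
      ‖(∑ p, star (u p) * a i * u p) - f‖ ≤ ε := by
  set M := ∑ j, ‖D j‖ * ‖C j‖ with hM
  have hM0 : 0 ≤ M := Finset.sum_nonneg fun j _ => by positivity
  set δ := ε / 12 with hδ
  have hδ0 : 0 < δ := by positivity
  set c := δ / (M + 1) with hc
  have hc0 : 0 < c := by positivity
  refine ⟨Real.sqrt ((‖f‖ + 4 * (3 * δ)) / c), Real.sqrt_nonneg _, ?_⟩
  filter_upwards [hlim.eventually_le_const hδ0] with i hi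
  have hI := isClosedIdeal_genIdeal (cut c (a i))
  have hnear : Near (genIdeal (cut c (a i))) (2 * δ) f := by
    refine ⟨∑ j, star (D j i) * cut c (a i) * C j i, hI.sum_mem _ _ fun j _ =>
      hI.mul_right _ _ (hI.mul_left _ _ (mem_genIdeal_self _)), ?_⟩
    refine (norm_sub_le_norm_sub_add_norm_sub f (∑ j, star (D j i) * a i * C j i) _).trans ?_
    rw [norm_sub_rev, two_mul]
    refine add_le_add hi ?_
    rw [← Finset.sum_sub_distrib]
    refine (norm_sum_le _ _).trans ((Finset.sum_le_sum (g := fun j => ‖D j‖ * c * ‖C j‖)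
      fun j _ => ?_).trans ?_)
    · rw [← sub_mul, ← mul_sub]
      refine norm_mul₃_le.trans ?_
      rw [norm_star]
      gcongr
      · exact (D j).norm_coe_le_norm i
      · exact norm_sub_cut_self_le hc0.le (ha i)
      · exact (C j).norm_coe_le_norm i
    · calc ∑ j, ‖D j‖ * c * ‖C j‖ = M * c := by
            rw [hM, Finset.sum_mul]; exact Finset.sum_congr rfl fun j _ => by ring
        _ ≤ (M + 1) * c := by gcongr; linarith
        _ = δ := by rw [hc]; field_simp
  have hdom := Near.dom hI hδ0 hf.isSelfAdjoint hnear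
  rw [show 2 * δ + δ = 3 * δ by ring] at hdom
  obtain ⟨u, hu', hu, hub⟩ :=
    hP.compare hA₀ hn hfA hf (haA i) (ha i) hc0 (by positivity) hdom
  refine ⟨u, fun p => ⟨hu' p, ?_⟩, hu.trans_eq (by rw [hδ]; ring)⟩
  refine Real.le_sqrt_of_sq_le ?_
  rw [le_div_iff₀ hc0]
  linarith [hub p]

/-- **Absorption**, relative to an ideal. -/
theorem absorb : AbsorbStatement.{u} := by
  intro B _ _ _ A₀ hA₀ n hn hP hdrop x y hxA hyA hx hy ε hε
  obtain ⟨U, e, m, D, C, ⟨hU, he, hD, hC⟩, hrow⟩ :=
    exists_matrix_row (fun a ha => hA₀.star_mem ha) hdrop (2 * n)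
  have h2n : 2 * n ≤ 2 ^ (2 * n) := Nat.lt_two_pow_self.le
  let ι₁ : Fin n → Fin (2 ^ (2 * n)) := fun p => ⟨p, by omega⟩
  let ι₂ : Fin n → Fin (2 ^ (2 * n)) := fun p => ⟨n + p, by omega⟩
  let i₀ : Fin (2 ^ (2 * n)) := ι₁ ⟨0, hn⟩
  choose U' hU' using fun w => seqMk_surjective (U w)
  choose D' hD' using fun i => seqMk_surjective (D i)
  choose C' hC' using fun i => seqMk_surjective (C i)
  let a : B → ℕ →ᵇ B := fun z => const ℕ z * (star (U' i₀) * U' i₀) * const ℕ z
  have haA : ∀ z ∈ A₀, ∀ i, a z i ∈ A₀ := fun z hz i => hA₀.mul_left _ _ hz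
  have ha : ∀ z, 0 ≤ z → ∀ i, 0 ≤ a z i := fun z hz i => by
    have h := star_mul_self_nonneg (U' i₀ i * z)
    rw [star_mul, hz.isSelfAdjoint.star_eq] at h
    simpa [a, mul_assoc] using h
  have hae : ∀ z ∈ A₀, seqMk B atTop (a z) = constQ z * e * constQ z := fun z hz => by
    simp only [a, map_mul, map_star, hU']
    rw [mul_assoc (constQ z), ((hrow _ ⟨z, hz, rfl⟩).1 i₀ i₀), if_pos rfl, ← mul_assoc]
  have hlim : ∀ z ∈ A₀, Tendsto (fun i => ‖∑ j, star (D' j i) * a z i * C' j i - z * z‖)
      atTop (𝓝 0) := by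
    intro z hz
    have h : seqMk B atTop (∑ j, star (D' j) * a z * C' j) =
        seqMk B atTop (const ℕ (z * z)) := by
      rw [map_sum]
      simp only [map_mul, map_star, hD', hC', hae z hz]
      rw [show seqMk B atTop (const ℕ (z * z)) = constQ z * constQ z by rw [← map_mul]; rfl]
      set Z := constQ z
      calc ∑ j, star (D j) * (Z * e * Z) * C j = ∑ j, Z * (star (D j) * e * C j) * Z := by
            refine Finset.sum_congr rfl fun j _ => ?_
            have c1 : Commute (star (D j)) Z := centSub_commute (star_mem (hD j)) z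
            have c2 : Commute (C j) Z := centSub_commute (hC j) z
            calc star (D j) * (Z * e * Z) * C j = star (D j) * Z * e * (Z * C j) := by
                  simp only [mul_assoc]
              _ = _ := by rw [c1.eq, ← c2.eq]; simp only [mul_assoc]
        _ = Z * Z := by
            rw [← Finset.sum_mul, ← Finset.mul_sum, mul_assoc, (hrow Z ⟨z, hz, rfl⟩).2]
    refine (seqMk_eq_iff.1 h).congr fun i => ?_
    simp
  have hmid : ∀ z ∈ A₀, ∀ w w', Tendsto (fun i => ‖star (U' w i) * (z * z) * U' w' i -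
      (if w = w' then a z i else 0)‖) atTop (𝓝 0) := by
    intro z hz w w'
    have h : seqMk B atTop (star (U' w) * (const ℕ z * const ℕ z) * U' w') =
        seqMk B atTop (if w = w' then a z else 0) := by
      simp only [map_mul, map_star, hU', apply_ite (seqMk B atTop), map_zero, hae z hz]
      set Z := constQ z
      calc star (U w) * (Z * Z) * U w' = star (U w) * Z * (Z * U w') := by simp only [mul_assoc]
        _ = Z * (star (U w) * U w' * Z) := by
            rw [(centSub_commute (star_mem (hU w)) z).eq, ← (centSub_commute (hU w') z).eq]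
            simp only [Z, constQ, mul_assoc]
        _ = _ := by
            rw [(hrow Z ⟨z, hz, rfl⟩).1 w w']
            split_ifs <;> simp [mul_assoc]
    refine (seqMk_eq_iff.1 h).congr fun i => ?_
    split_ifs <;> simp
  have hcross : ∀ p q, Tendsto (fun i => ‖star (U' (ι₁ p) i) * (x * y) * U' (ι₂ q) i‖)
      atTop (𝓝 0) := by
    intro p q
    have hne : ι₁ p ≠ ι₂ q := fun h => by
      have := congrArg Fin.val h
      simp only [ι₁, ι₂] at this
      omega
    have h : seqMk B atTop (star (U' (ι₁ p)) * (const ℕ x * const ℕ y) * U' (ι₂ q)) = 0 := by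
      simp only [map_mul, map_star, hU']
      set X := constQ x
      set Y := constQ y
      calc star (U (ι₁ p)) * (X * Y) * U (ι₂ q) = star (U (ι₁ p)) * X * (Y * U (ι₂ q)) := by
            simp only [mul_assoc]
        _ = X * (star (U (ι₁ p)) * U (ι₂ q) * Y) := by
            rw [(centSub_commute (star_mem (hU _)) x).eq, ← (centSub_commute (hU _) y).eq]
            simp only [X, Y, constQ, mul_assoc]
        _ = 0 := by rw [(hrow Y ⟨y, hyA, rfl⟩).1, if_neg hne, zero_mul, mul_zero]
    refine (seqMk_eq_zero.1 h).congr fun i => ?_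
    simp
  obtain ⟨K, hK0, hK⟩ := compare_eventually hA₀ hn hP (hA₀.mul_left x x hxA)
    (by simpa [hx.isSelfAdjoint.star_eq] using star_mul_self_nonneg x) (a x) (haA x hxA)
    (ha x hx) D' C' (hlim x hxA) (ε := ε / 4) (by positivity)
  obtain ⟨K', hK'0, hK'⟩ := compare_eventually hA₀ hn hP (hA₀.mul_left y y hyA)
    (by simpa [hy.isSelfAdjoint.star_eq] using star_mul_self_nonneg y) (a y) (haA y hyA)
    (ha y hy) D' C' (hlim y hyA) (ε := ε / 4) (by positivity)
  set η := ε / (4 * ((n : ℝ) * (n * ((K + K') * (K + K'))) + 1)) with hη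
  have hη0 : 0 < η := by positivity
  have hev1 := eventually_all.2 fun p => eventually_all.2 fun q =>
    (hmid x hxA (ι₁ p) (ι₁ q)).eventually_le_const hη0
  have hev2 := eventually_all.2 fun p => eventually_all.2 fun q =>
    (hmid y hyA (ι₂ p) (ι₂ q)).eventually_le_const hη0
  have hev3 := eventually_all.2 fun p => eventually_all.2 fun q =>
    (hcross p q).eventually_le_const hη0
  obtain ⟨i, ⟨u, hub, hu⟩, ⟨w, hwb, hw⟩, h1, h2, h3⟩ :=
    (hK.and (hK'.and (hev1.and (hev2.and hev3)))).exists
  have hι₁ : ∀ p q, ι₁ p = ι₁ q ↔ p = q := fun p q => by simp [ι₁, Fin.ext_iff]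
  have hι₂ : ∀ p q, ι₂ p = ι₂ q ↔ p = q := fun p q => by simp [ι₂, Fin.ext_iff]
  have hb : ∀ P Q, 0 ≤ P → P ≤ K + K' → 0 ≤ Q → Q ≤ K + K' →
      (n : ℝ) * (n * (P * η * Q)) ≤ ε / 4 := by
    intro P Q hP0 hP1 hQ0 hQ1
    set T := (n : ℝ) * (n * ((K + K') * (K + K'))) with hT
    have hT0 : 0 ≤ T := by positivity
    calc (n : ℝ) * (n * (P * η * Q)) ≤ n * (n * ((K + K') * η * (K + K'))) := by gcongr
      _ = T / (T + 1) * (ε / 4) := by rw [hη, hT]; field_simp
      _ ≤ 1 * (ε / 4) := by gcongr; rw [div_le_one (by positivity)]; linarith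
      _ = ε / 4 := one_mul _
  refine ⟨∑ p, U' (ι₁ p) i * u p, ∑ p, U' (ι₂ p) i * w p,
    hA₀.sum_mem _ _ fun p _ => hA₀.mul_left _ _ (hub p).1,
    hA₀.sum_mem _ _ fun p _ => hA₀.mul_left _ _ (hwb p).1, ?_, ?_, ?_⟩
  · refine (row_conj_le u (fun p => U' (ι₁ p) i) (x * x) (a x i) (x * x) hK0
      (fun p => (hub p).2) (fun p q => by simpa [hι₁] using h1 p q) hu).trans_lt ?_
    linarith [hb K K hK0 (by linarith) hK0 (by linarith)]
  · refine (row_conj_le w (fun p => U' (ι₂ p) i) (y * y) (a y i) (y * y) hK'0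
      (fun p => (hwb p).2) (fun p q => by simpa [hι₂] using h2 p q) hw).trans_lt ?_
    linarith [hb K' K' hK'0 (by linarith) hK'0 (by linarith)]
  · rw [mul_assoc _ x y]
    refine (row_cross_le u w (fun p => U' (ι₁ p) i) (fun p => U' (ι₂ p) i) (x * y) hK0
      (fun p => (hub p).2) (fun p => (hwb p).2) h3).trans_lt ?_
    linarith [hb K K' hK0 (by linarith) hK'0 (by linarith)]

end Vale.Agent.P133.NucDimGen
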