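import Vale.Agent.P133.NucDimGen.Specs
import Vale.Agent.P133.NucDim.Approx
import Vale.Agent.P095.Relative.NonUnital

/-!
P133, finite nuclear dimension without unit: each colour of a good decomposition almost multiplies.

The unit is replaced by `g * g` for a self-adjoint contraction `g` of the algebra, and the test
elements are squares `a = s * s`, so that `g * a` is close to `a` in every colour when `g * s` is
close to `s`.
-/

noncomputable section

namespace Vale.Agent.P133.NucDimGen

open Filter Topology Vale.Agent.P095.Full Vale.Agent.P095.Compare Vale.Agent.P133.FinDim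
open scoped ComplexOrder

universe u

variable {A : Type u} [NonUnitalCStarAlgebra A] [PartialOrder A] [StarOrderedRing A]

/-- A completely positive map out of matrices stays completely positive in the unitization. -/
theorem isCPMapMat_inr [TopologicalSpace.SeparableSpace A] {k : ℕ}
    (φ : Matrix (Fin k) (Fin k) ℂ →ₗ[ℂ] A) (hφ : IsCPFromMat φ)
    (φ' : Matrix (Fin k) (Fin k) ℂ →ₗ[ℂ] Unitization ℂ A)
    (he : ∀ M, φ' M = ((φ M : A) : Unitization ℂ A)) :
    IsCPMapMat (Unitization ℂ A) φ' := by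
  intro m a b
  obtain ⟨e, he1, hes, hu⟩ := Vale.Agent.P095.Relative.exists_unitSeq (A := A)
  let T : ℕ → Unitization ℂ A := fun n => ∑ i, ∑ j,
    star ((e n : Unitization ℂ A) * b i) * ((φ (star (a i) * a j) : A) : Unitization ℂ A) *
      ((e n : Unitization ℂ A) * b j)
  have hmem : ∀ n i, ∃ c : A, ((c : A) : Unitization ℂ A) = (e n : Unitization ℂ A) * b i :=
    fun n i => ⟨((e n : Unitization ℂ A) * b i).snd,
      Vale.Agent.P095.Relative.fst_zero_eq (by simp)⟩
  have hT : ∀ n, 0 ≤ T n := fun n => by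
    choose c hc using hmem n
    have hs : ∀ f : Fin m → A, (((∑ i, f i) : A) : Unitization ℂ A) =
        ∑ i, (f i : Unitization ℂ A) :=
      fun f => map_sum (Unitization.inrNonUnitalStarAlgHom ℂ A) f _
    refine le_of_le_of_eq (Unitization.inr_nonneg_iff.2 (hφ m a c)) ?_
    simp only [hs, Unitization.inr_mul, Unitization.inr_star, hc, T]
  refine CStarAlgebra.nonneg_iff_eq_star_mul_self.1 ?_
  suffices h : (∑ i, ∑ j, star (b i) * φ' (star (a i) * a j) * b j) ∈
      {z : Unitization ℂ A | 0 ≤ z} from h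
  refine CStarAlgebra.isClosed_nonneg.mem_of_tendsto (f := T) (b := atTop) ?_
    (Eventually.of_forall hT)
  refine tendsto_finsetSum _ fun i _ => tendsto_finsetSum _ fun j _ => ?_
  have e1 : ∀ n, star ((e n : Unitization ℂ A) * b i) *
      ((φ (star (a i) * a j) : A) : Unitization ℂ A) * ((e n : Unitization ℂ A) * b j) =
      star (b i) * ((e n * φ (star (a i) * a j) * e n : A) : Unitization ℂ A) * b j := fun n => by
    rw [star_mul, ← Unitization.inr_star, hes n, Unitization.inr_mul, Unitization.inr_mul]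
    simp only [mul_assoc]
  simp only [e1, he]
  refine (tendsto_const_nhds.mul
    ((Unitization.isometry_inr.continuous.tendsto _).comp ?_)).mul tendsto_const_nhds
  rw [tendsto_iff_norm_sub_tendsto_zero]
  set z := φ (star (a i) * a j)
  refine squeeze_zero (fun n => norm_nonneg _) (fun n => ?_)
    (by simpa using (hu z).1.add (hu z).2)
  rw [show e n * z * e n - z = (e n * z - z) * e n + (z * e n - z) by rw [sub_mul]; abel]
  exact (norm_add_le _ _).trans (add_le_add ((norm_mul_le _ _).trans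
    (mul_le_of_le_one_right (norm_nonneg _) (he1 n))) le_rfl)

omit [PartialOrder A] [StarOrderedRing A] in
/-- The matrix kernel of two vectors under a completely positive map has positive forms. -/
theorem scalar_form_nonneg {k m : ℕ} {ψ : A →ₗ[ℂ] Matrix (Fin k) (Fin k) ℂ} (hψ : IsCPToMat ψ)
    (v : Fin m → A) (c : Fin m × Fin k → ℂ) :
    0 ≤ ∑ p, ∑ q, star (c p) * ψ (star (v p.1) * v q.1) p.2 q.2 * c q := by
  by_cases hk : k = 0
  · subst hk; simp
  obtain ⟨j⟩ : Nonempty (Fin k) := ⟨⟨0, Nat.pos_of_ne_zero hk⟩⟩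
  obtain ⟨w, hw⟩ := hψ m v (fun i => Matrix.of fun a _ => c (i, a))
  have h := congrArg (fun M : Matrix (Fin k) (Fin k) ℂ => M j j) hw
  simp only [Matrix.sum_apply, Matrix.mul_apply, Matrix.star_apply, Matrix.of_apply,
    Finset.sum_mul] at h
  refine le_of_le_of_eq ((Finset.sum_nonneg fun a _ => star_mul_self_nonneg (w a j)) :
      (0 : ℂ) ≤ ∑ a, star (w a j) * w a j) ?_
  rw [← h, Fintype.sum_prod_type]
  refine Finset.sum_congr rfl fun i _ => ?_
  simp only [Fintype.sum_prod_type]
  rw [Finset.sum_comm (s := (Finset.univ : Finset (Fin k))) (t := (Finset.univ : Finset (Fin m)))]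
  exact Finset.sum_congr rfl fun i' _ => Finset.sum_comm

/-- The kernel of a composition through matrices has positive forms in the unitization. -/
theorem comp_form_nonneg {n m : ℕ} {ψ : A →ₗ[ℂ] Matrix (Fin n) (Fin n) ℂ}
    {φ : Matrix (Fin n) (Fin n) ℂ →ₗ[ℂ] Unitization ℂ A} (hψ : IsCPToMat ψ)
    (hφ : IsCPMapMat (Unitization ℂ A) φ) (v : Fin m → A) (b : Fin m → Unitization ℂ A) :
    0 ≤ ∑ x, ∑ y, star (b x) * φ (ψ (star (v x) * v y)) * b y := by
  obtain ⟨Z, hZ⟩ := exists_gram
    (fun p q : Fin m × Fin n => ψ (star (v p.1) * v q.1) p.2 q.2) (scalar_form_nonneg hψ v)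
  obtain ⟨z, hz⟩ := exists_kraus hφ
  have e : ∀ x y, ψ (star (v x) * v y) =
      Matrix.of fun a a' => ∑ w, star (Z w (x, a)) * Z w (y, a') := fun x y => by
    ext a a'
    exact hZ (x, a) (y, a')
  simp only [e, kraus_form hz Z b]
  exact Finset.sum_nonneg fun wl _ => star_mul_self_nonneg _

/-- A positive kernel of two elements: the first row at `(a, -1)` is bounded by the form. -/
theorem row_sq_le {B : Type u} [CStarAlgebra B] [PartialOrder B] [StarOrderedRing B] {p q r a : B}
    (ha : star a = a) (hp : p ≤ 1) (hps : star p = p)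
    (h : ∀ b₁ b₂ : B,
      0 ≤ star b₁ * p * b₁ + star b₁ * q * b₂ + star b₂ * star q * b₁ + star b₂ * r * b₂) :
    star (p * a - q) * (p * a - q) ≤ a * p * a - a * q - star q * a + r := by
  set X := p * a - q with hX
  have h1 := h (a - X) (-1)
  have hXs : star X = a * p - star q := by rw [hX, star_sub, star_mul, hps, ha]
  have e : star (a - X) * p * (a - X) + star (a - X) * q * (-1) +
      star (-1 : B) * star q * (a - X) + star (-1 : B) * r * (-1) =
      (a * p * a - a * q - star q * a + r) - star X * X - (star X * X - star X * p * X) := by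
    rw [star_sub, ha, star_neg, star_one]
    have e1 : star X * p * a - star X * q = star X * X := by rw [mul_assoc, ← mul_sub, ← hX]
    have e2 : a * p * X - star q * X = star X * X := by rw [← sub_mul, ← hXs]
    calc (a - star X) * p * (a - X) + (a - star X) * q * (-1) + (-1) * star q * (a - X) +
          (-1) * r * (-1)
        = (a * p * a - a * q - star q * a + r) - (star X * p * a - star X * q) -
            (a * p * X - star q * X) + star X * p * X := by noncomm_ring
      _ = _ := by rw [e1, e2]; abel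
  rw [e] at h1
  have h2 : star X * p * X ≤ star X * X := by
    simpa using star_left_conjugate_le_conjugate hp X
  rw [← sub_nonneg]
  exact h1.trans (sub_le_self _ (sub_nonneg.2 h2))

/-- The colour `c` on an element of the algebra. -/
def etaA {d : ℕ} (D : Colours (base A) d) (c : Fin (d + 1)) (x : A) : Unitization ℂ A :=
  D.eta c (x : Unitization ℂ A)

/-- What is used of a decomposition. -/
structure GoodColours {d : ℕ} (D : Colours (base A) d) : Prop where
  map_smul : ∀ c (t : ℝ) (x : A), etaA D c (t • x) = t • etaA D c x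
  map_add : ∀ c (x y : A), etaA D c (x + y) = etaA D c x + etaA D c y
  map_star : ∀ c (x : A), etaA D c (star x) = star (etaA D c x)
  le_one : ∀ c (x : A), 0 ≤ x → ‖x‖ ≤ 1 → etaA D c x ≤ 1
  form : ∀ c (v₁ v₂ : A) (b₁ b₂ : Unitization ℂ A),
    0 ≤ star b₁ * etaA D c (star v₁ * v₁) * b₁ + star b₁ * etaA D c (star v₁ * v₂) * b₂ +
      star b₂ * etaA D c (star v₂ * v₁) * b₁ + star b₂ * etaA D c (star v₂ * v₂) * b₂

/-- A decomposition, read as colours in the unitization. -/
theorem exists_colours [TopologicalSpace.SeparableSpace A] {d L : ℕ} (col : Fin L → Fin (d + 1))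
    (n : Fin L → ℕ) (ψ : ∀ l, A →ₗ[ℂ] Matrix (Fin (n l)) (Fin (n l)) ℂ)
    (φ : ∀ l, Matrix (Fin (n l)) (Fin (n l)) ℂ →ₗ[ℂ] A)
    (h1 : ∀ l, IsCPToMat (ψ l) ∧
      (∀ a : A, 0 ≤ a → ‖a‖ ≤ 1 →
        ∃ w : Matrix (Fin (n l)) (Fin (n l)) ℂ, 1 - ψ l a = star w * w) ∧
      IsCPFromMat (φ l) ∧ ‖φ l 1‖ ≤ 1)
    (h2 : ∀ l, ∀ a b : Matrix (Fin (n l)) (Fin (n l)) ℂ,
      star a * a * (star b * b) = 0 → φ l (star a * a) * φ l (star b * b) = 0)
    (h3 : ∀ l l', col l = col l' → l ≠ l' → φ l 1 * φ l' 1 = 0)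
    {g : A} (hgs : star g = g) (hg : ‖g‖ ≤ 1) :
    ∃ D : Colours (base A) d, D.e = ((g * g : A) : Unitization ℂ A) ∧ GoodColours D ∧
      ∀ x, ∑ c, etaA D c x = ((∑ l, φ l (ψ l x) : A) : Unitization ℂ A) := by
  classical
  let φ' : ∀ l, Matrix (Fin (n l)) (Fin (n l)) ℂ →ₗ[ℂ] Unitization ℂ A := fun l =>
    { toFun := fun M => ((φ l M : A) : Unitization ℂ A)
      map_add' := fun M N => by rw [map_add, Unitization.inr_add]
      map_smul' := fun c M => by rw [map_smul, Unitization.inr_smul, RingHom.id_apply] }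
  have hcp : ∀ l, IsCPMapMat (Unitization ℂ A) (φ' l) := fun l =>
    isCPMapMat_inr (φ l) (h1 l).2.2.1 (φ' l) fun _ => rfl
  have hone : ∀ l, IsPos (1 - φ' l 1) := fun l => by
    obtain ⟨w, hw⟩ := hcp l 1 (fun _ => 1) (fun _ => 1)
    simp only [Finset.univ_unique, Finset.sum_singleton, star_one, one_mul, mul_one] at hw
    refine CStarAlgebra.nonneg_iff_eq_star_mul_self.1 (sub_nonneg.2 ?_)
    refine (CStarAlgebra.norm_le_one_iff_of_nonneg _ (hw ▸ star_mul_self_nonneg w)).1 ?_
    show ‖((φ l 1 : A) : Unitization ℂ A)‖ ≤ 1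
    rw [Unitization.norm_inr]
    exact (h1 l).2.2.2
  have horth : ∀ l, ∀ a b : Matrix (Fin (n l)) (Fin (n l)) ℂ,
      star a * a * (star b * b) = 0 → φ' l (star a * a) * φ' l (star b * b) = 0 := by
    intro l a b hab
    show ((φ l (star a * a) : A) : Unitization ℂ A) * ((φ l (star b * b) : A) : Unitization ℂ A) = 0
    rw [← Unitization.inr_mul, h2 l a b hab, Unitization.inr_zero]
  choose U z hU hz using fun l => NucDim.exists_units (hcp l) (hone l) (horth l)
  have happ : ∀ l m, (U l).app m = φ' l m := fun l m => by rw [hU, NucDim.Units.app]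
  have hH : ∀ l, (U l).H = φ' l 1 := fun l => by
    rw [hU, NucDim.Units.H]
    simp [Matrix.one_apply]
  have hpos : ∀ l w, 0 ≤ φ' l (star w * w) := fun l w =>
    happ l _ ▸ (U l).app_nonneg (z l) (hz l) w
  have hwit : ∀ l (a : A), 0 ≤ a → ‖a‖ ≤ 1 →
      ∃ w : Matrix (Fin (n l)) (Fin (n l)) ℂ, ψ l a = star w * w ∧
        0 ≤ φ' l (ψ l a) ∧ φ' l (ψ l a) ≤ (U l).H := by
    intro l a ha ha1
    obtain ⟨v, rfl⟩ := CStarAlgebra.nonneg_iff_eq_star_mul_self.1 ha
    obtain ⟨w, hw⟩ := (h1 l).1 1 (fun _ => v) (fun _ => 1)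
    simp only [Finset.univ_unique, Finset.sum_singleton, star_one, one_mul, mul_one] at hw
    obtain ⟨w', hw'⟩ := (h1 l).2.1 _ ha ha1
    refine ⟨w, hw, hw ▸ hpos l w, ?_⟩
    rw [← sub_nonneg, hH, ← map_sub, hw']
    exact hpos l w'
  let D : Colours (base A) d :=
    { L := L
      col := col
      size := n
      U := U
      p := fun l x => φ' l (ψ l x.snd)
      e := ((g * g : A) : Unitization ℂ A)
      orth := fun l l' hc hne => by
        rw [hH, hH]
        show ((φ l 1 : A) : Unitization ℂ A) * ((φ l' 1 : A) : Unitization ℂ A) = 0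
        rw [← Unitization.inr_mul, h3 l l' hc hne, Unitization.inr_zero]
      H_mem := fun l => by rw [hH]; exact ⟨_, rfl⟩
      rep := fun l x hx hx0 hx1 => by
        obtain ⟨a, rfl⟩ := hx
        have ha : 0 ≤ a := Unitization.inr_nonneg_iff.1 hx0
        have ha1 : ‖a‖ ≤ 1 := by
          rw [← Unitization.norm_inr (𝕜 := ℂ)]
          exact (CStarAlgebra.norm_le_one_iff_of_nonneg _ hx0).2 hx1
        obtain ⟨w, hw, hw0, hwH⟩ := hwit l a ha ha1
        refine ⟨w, ?_, ?_⟩
        · show φ' l (ψ l (a : Unitization ℂ A).snd) = (U l).app (star w * w)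
          rw [happ, Unitization.snd_inr, hw]
        · simp only [Unitization.snd_inr]
          exact ⟨hw0, hwH⟩
      e_mem := ⟨_, rfl⟩
      e_nonneg := by
        refine Unitization.inr_nonneg_iff.2 ?_
        simpa [hgs] using star_mul_self_nonneg g
      e_le_one := by
        refine (CStarAlgebra.norm_le_one_iff_of_nonneg _ ?_).1 ?_
        · refine Unitization.inr_nonneg_iff.2 ?_
          simpa [hgs] using star_mul_self_nonneg g
        · rw [Unitization.norm_inr]
          exact (norm_mul_le _ _).trans (mul_le_one₀ hg (norm_nonneg _) hg) }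
  have heta : ∀ c x, etaA D c x =
      ∑ l ∈ Finset.univ.filter (fun l => col l = c), φ' l (ψ l x) := fun c x => by
    show ∑ l ∈ Finset.univ.filter (fun l => col l = c), φ' l (ψ l (x : Unitization ℂ A).snd) = _
    simp only [Unitization.snd_inr]
  have hform : ∀ c (v₁ v₂ : A) (b₁ b₂ : Unitization ℂ A),
      0 ≤ star b₁ * etaA D c (star v₁ * v₁) * b₁ + star b₁ * etaA D c (star v₁ * v₂) * b₂ +
        star b₂ * etaA D c (star v₂ * v₁) * b₁ + star b₂ * etaA D c (star v₂ * v₂) * b₂ := by
    intro c v₁ v₂ b₁ b₂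
    simp only [heta, Finset.mul_sum, Finset.sum_mul, ← Finset.sum_add_distrib]
    refine Finset.sum_nonneg fun l _ => ?_
    refine le_of_le_of_eq (comp_form_nonneg (h1 l).1 (hcp l) ![v₁, v₂] ![b₁, b₂]) ?_
    simp [Fin.sum_univ_two, add_assoc]
  have hstar : ∀ l (x : A), φ' l (ψ l (star x)) = star (φ' l (ψ l x)) := by
    intro l x
    let S : Submodule ℂ A :=
      { carrier := {x | φ' l (ψ l (star x)) = star (φ' l (ψ l x))}
        zero_mem' := by simp
        add_mem' := fun {x y} hx hy => by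
          show φ' l (ψ l (star (x + y))) = _
          simp only [star_add, map_add]
          rw [show φ' l (ψ l (star x)) = _ from hx, show φ' l (ψ l (star y)) = _ from hy]
        smul_mem' := fun t x hx => by
          show φ' l (ψ l (star (t • x))) = _
          simp only [star_smul, map_smul]
          rw [show φ' l (ψ l (star x)) = _ from hx] }
    have hsub : {a : A | 0 ≤ a} ⊆ (S : Set A) := by
      intro a ha
      show φ' l (ψ l (star a)) = star (φ' l (ψ l a))
      obtain ⟨v, rfl⟩ := CStarAlgebra.nonneg_iff_eq_star_mul_self.1 ha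
      obtain ⟨w, hw⟩ := (h1 l).1 1 (fun _ => v) (fun _ => 1)
      simp only [Finset.univ_unique, Finset.sum_singleton, star_one, one_mul, mul_one] at hw
      rw [star_mul, star_star, hw]
      exact (IsSelfAdjoint.of_nonneg (hpos l w)).star_eq.symm
    have hx : x ∈ Submodule.span ℂ {a : A | 0 ≤ a} := by rw [CStarAlgebra.span_nonneg]; trivial
    exact Submodule.span_le.2 hsub hx
  refine ⟨D, rfl, ⟨fun c t x => ?_, fun c x y => ?_, fun c x => ?_, fun c x hx hx1 => ?_, hform⟩,
    fun x => ?_⟩
  · simp only [heta, Finset.smul_sum, ← Complex.coe_smul, map_smul]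
  · simp only [heta, map_add, Finset.sum_add_distrib]
  · simp only [heta, star_sum, hstar]
  · rw [heta]
    have hn : ‖∑ l ∈ Finset.univ.filter (fun l => col l = c), φ' l 1‖ ≤ 1 := by
      refine NucDim.norm_sum_orth_le _ _ (fun i hi j hj hij => ?_) (fun i hi j hj hij => ?_)
        zero_le_one fun i _ => hH i ▸ (U i).norm_H_le
      all_goals
        have hsa : ∀ l, star (φ' l 1) = φ' l 1 := fun l =>
          hH l ▸ (IsSelfAdjoint.of_nonneg (U l).H_nonneg).star_eq
        rw [hsa, ← hH, ← hH]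
        exact D.orth i j
          ((Finset.mem_filter.1 hi).2.trans (Finset.mem_filter.1 hj).2.symm) hij
    refine (Finset.sum_le_sum fun l _ => ((hwit l x hx hx1).choose_spec.2.2).trans_eq (hH l)).trans ?_
    exact (CStarAlgebra.norm_le_one_iff_of_nonneg _
      (Finset.sum_nonneg fun l _ => hH l ▸ (U l).H_nonneg)).1 hn
  · simp only [heta]
    rw [Finset.sum_fiberwise Finset.univ col fun l => φ' l (ψ l x)]
    exact (map_sum (Unitization.inrNonUnitalStarAlgHom ℂ A) _ _).symm

namespace GoodColours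

variable {d : ℕ} {D : Colours (base A) d} (h : GoodColours D) (c : Fin (d + 1))

include h

omit [StarOrderedRing A] in
theorem nonneg (v : A) : 0 ≤ etaA D c (star v * v) := by
  simpa using h.form c v v 1 0

/-- A colour on a product of contractions is a contraction. -/
theorem norm_le {z y : A} (hz : ‖z‖ ≤ 1) (hy : ‖y‖ ≤ 1) : ‖etaA D c (star z * y)‖ ≤ 1 := by
  have h1 : ∀ v : A, ‖v‖ ≤ 1 → etaA D c (star v * v) ≤ 1 := fun v hv =>
    h.le_one c _ (star_mul_self_nonneg v) (by
      rw [CStarRing.norm_star_mul_self]; exact mul_le_one₀ hv (norm_nonneg _) hv)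
  have e : etaA D c (star y * z) = star (etaA D c (star z * y)) := by
    rw [← h.map_star c, star_mul, star_star]
  have hrow := row_sq_le (a := 0) (q := etaA D c (star z * y)) (r := etaA D c (star y * y))
    (star_zero _) (h1 z hz) (IsSelfAdjoint.of_nonneg (h.nonneg c z)).star_eq
    fun b₁ b₂ => e ▸ h.form c z y b₁ b₂
  simp only [mul_zero, zero_sub, zero_mul, star_neg, neg_mul_neg, sub_zero,
    zero_add] at hrow
  have h2 := CStarAlgebra.norm_le_norm_of_nonneg_of_le (star_mul_self_nonneg _) (hrow.trans (h1 y hy))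
  rw [CStarRing.norm_star_mul_self] at h2
  rcases subsingleton_or_nontrivial (Unitization ℂ A) with hs | hs
  · simp [Subsingleton.elim (etaA D c (star z * y)) 0]
  · rw [norm_one] at h2
    nlinarith [norm_nonneg (etaA D c (star z * y))]

theorem norm_le_mul {z y : A} (hz : ‖z‖ ≤ 1) : ‖etaA D c (star z * y)‖ ≤ ‖y‖ := by
  rcases eq_or_ne y 0 with rfl | hy
  · have : etaA D c (0 : A) = 0 := by simpa using h.map_smul c 0 0
    simp [this]
  have hy' : 0 < ‖y‖ := norm_pos_iff.2 hy
  have e : etaA D c (star z * y) = ‖y‖ • etaA D c (star z * (‖y‖⁻¹ • y)) := by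
    rw [← h.map_smul, mul_smul_comm, smul_smul, mul_inv_cancel₀ hy'.ne', one_smul]
  rw [e, norm_smul, Real.norm_eq_abs, abs_of_pos hy']
  refine mul_le_of_le_one_right hy'.le (h.norm_le c hz ?_)
  rw [norm_smul, norm_inv, norm_norm, inv_mul_cancel₀ hy'.ne']

/-- The sum of the colours almost fixing five products makes each colour almost multiply. -/
theorem eta_mul_close {g s : A} (hgs : star g = g) (hss : star s = s) (hg : ‖g‖ ≤ 1) (hs : ‖s‖ ≤ 1)
    {δ γ : ℝ} (hγ : ‖g * s - s‖ ≤ γ)
    (e1 : ‖∑ c, etaA D c (g * g) - ((g * g : A) : Unitization ℂ A)‖ ≤ δ)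
    (e2 : ‖∑ c, etaA D c (g * (s * s)) - ((g * (s * s) : A) : Unitization ℂ A)‖ ≤ δ)
    (e3 : ‖∑ c, etaA D c (s * s * g) - ((s * s * g : A) : Unitization ℂ A)‖ ≤ δ)
    (e4 : ‖∑ c, etaA D c (s * s * (s * s)) - ((s * s * (s * s) : A) : Unitization ℂ A)‖ ≤ δ) :
    ‖etaA D c (g * g) * ((s * s : A) : Unitization ℂ A) - etaA D c (s * s)‖ ≤
        √(4 * δ + γ * γ) + γ ∧
      ‖((s * s : A) : Unitization ℂ A) * etaA D c (g * g) - etaA D c (s * s)‖ ≤
        √(4 * δ + γ * γ) + γ := by
  have hγ0 : 0 ≤ γ := (norm_nonneg _).trans hγ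
  have hδ0 : 0 ≤ δ := (norm_nonneg _).trans e1
  set a0 := s * s with ha0
  have ha0s : star a0 = a0 := by rw [ha0, star_mul, hss]
  set a : Unitization ℂ A := ((a0 : A) : Unitization ℂ A) with hadef
  have has : star a = a := by rw [hadef, ← Unitization.inr_star, ha0s]
  have han : ‖a‖ ≤ 1 := by
    rw [hadef, Unitization.norm_inr]
    exact (norm_mul_le _ _).trans (mul_le_one₀ hs (norm_nonneg _) hs)
  have hgg0 : 0 ≤ g * g := by simpa [hgs] using star_mul_self_nonneg g
  have hgg1 : ‖g * g‖ ≤ 1 := (norm_mul_le _ _).trans (mul_le_one₀ hg (norm_nonneg _) hg)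
  have hqs : ∀ c, star (etaA D c (g * a0)) = etaA D c (a0 * g) := fun c => by
    rw [← h.map_star, star_mul, hgs, ha0s]
  set T : Fin (d + 1) → Unitization ℂ A := fun c =>
    a * etaA D c (g * g) * a - a * etaA D c (g * a0) - etaA D c (a0 * g) * a + etaA D c (a0 * a0)
    with hT
  set X := etaA D c (g * g) * a - etaA D c (g * a0)
  have hrow : ∀ c, star (etaA D c (g * g) * a - etaA D c (g * a0)) *
      (etaA D c (g * g) * a - etaA D c (g * a0)) ≤ T c := by
    intro c
    have hps : star (etaA D c (g * g)) = etaA D c (g * g) := by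
      rw [← h.map_star, star_mul, hgs]
    refine (row_sq_le has (h.le_one c _ hgg0 hgg1) hps (r := etaA D c (a0 * a0))
      fun b₁ b₂ => ?_).trans_eq (by rw [hqs])
    have := h.form c g a0 b₁ b₂
    rw [hgs, ha0s] at this
    rwa [hqs]
  have hle : star X * X ≤ ∑ c, T c := (hrow c).trans (Finset.single_le_sum
    (fun c _ => (star_mul_self_nonneg _).trans (hrow c)) (Finset.mem_univ c))
  set G : Unitization ℂ A := ((g : A) : Unitization ℂ A) with hG
  have hGs : star G = G := by rw [hG, ← Unitization.inr_star, hgs]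
  have hsum : ∑ c, T c = a * (∑ c, etaA D c (g * g) - ((g * g : A) : Unitization ℂ A)) * a
      - a * (∑ c, etaA D c (g * a0) - ((g * a0 : A) : Unitization ℂ A))
      - (∑ c, etaA D c (a0 * g) - ((a0 * g : A) : Unitization ℂ A)) * a
      + (∑ c, etaA D c (a0 * a0) - ((a0 * a0 : A) : Unitization ℂ A))
      + star (G * a - a) * (G * a - a) := by
    simp only [hT, Finset.sum_add_distrib, Finset.sum_sub_distrib, ← Finset.mul_sum,
      ← Finset.sum_mul, Unitization.inr_mul, star_sub, star_mul, has, hGs, ← hG, ← hadef]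
    noncomm_ring
  have hGa : ‖G * a - a‖ ≤ γ := by
    rw [hG, hadef, ← Unitization.inr_mul, ← Unitization.inr_sub, Unitization.norm_inr, ha0,
      ← mul_assoc, ← sub_mul]
    exact (norm_mul_le _ _).trans ((mul_le_of_le_one_right (norm_nonneg _) hs).trans hγ)
  have hT4 : ‖∑ c, T c‖ ≤ 4 * δ + γ * γ := by
    rw [hsum]
    refine (norm_add_le _ _).trans (add_le_add ((norm_add_le _ _).trans ?_) ?_)
    · refine le_trans (add_le_add ((norm_sub_le _ _).trans (add_le_add ((norm_sub_le _ _).trans
        (add_le_add ?_ ?_)) ?_)) e4) (le_of_eq (show δ + δ + δ + δ = 4 * δ by ring))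
      · calc ‖a * (∑ c, etaA D c (g * g) - ((g * g : A) : Unitization ℂ A)) * a‖
            ≤ ‖a‖ * ‖∑ c, etaA D c (g * g) - ((g * g : A) : Unitization ℂ A)‖ * ‖a‖ :=
              (norm_mul_le _ _).trans
                (mul_le_mul_of_nonneg_right (norm_mul_le _ _) (norm_nonneg _))
          _ ≤ 1 * δ * 1 := by gcongr
          _ = δ := by ring
      · exact (norm_mul_le _ _).trans ((mul_le_mul han e2 (norm_nonneg _) zero_le_one).trans_eq
          (one_mul δ))
      · exact (norm_mul_le _ _).trans ((mul_le_mul e3 han (norm_nonneg _) hδ0).trans_eq (mul_one δ))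
    · rw [CStarRing.norm_star_mul_self]
      exact mul_le_mul hGa hGa (norm_nonneg _) hγ0
  have hX : ‖X‖ ≤ √(4 * δ + γ * γ) := by
    refine Real.le_sqrt_of_sq_le ?_
    rw [sq, ← CStarRing.norm_star_mul_self]
    exact (CStarAlgebra.norm_le_norm_of_nonneg_of_le (star_mul_self_nonneg X) hle).trans hT4
  have hq : ‖etaA D c (g * a0) - etaA D c a0‖ ≤ γ := by
    rw [← norm_star, star_sub, hqs, ← h.map_star, ha0s]
    have hd : etaA D c (a0 * g) - etaA D c a0 = etaA D c (star s * (s * g - s)) := by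
      rw [hss, mul_sub, ← mul_assoc, ← ha0]
      refine sub_eq_iff_eq_add.2 ?_
      rw [← h.map_add, sub_add_cancel]
    rw [hd]
    refine (h.norm_le_mul c hs).trans ?_
    rw [← norm_star, star_sub, star_mul, hgs, hss]
    exact hγ
  have hmain : ‖etaA D c (g * g) * a - etaA D c a0‖ ≤ √(4 * δ + γ * γ) + γ :=
    (norm_sub_le_norm_sub_add_norm_sub _ (etaA D c (g * a0)) _).trans (add_le_add hX hq)
  refine ⟨hmain, ?_⟩
  have e : a * etaA D c (g * g) - etaA D c a0 = star (etaA D c (g * g) * a - etaA D c a0) := by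
    rw [star_sub, star_mul, has, ← h.map_star, ← h.map_star, star_mul, hgs, ha0s]
  rw [e, norm_star]
  exact hmain

end GoodColours

/-- The decompositions from finite nuclear dimension, with each colour almost a multiplication. -/
theorem approx : ApproxStatement.{u} := by
  intro A _ _ _ _ hnd
  classical
  obtain ⟨d, hd⟩ := hnd
  have : Nonempty {a : A // 0 ≤ a ∧ ‖a‖ ≤ 1} := ⟨⟨0, le_rfl, by simp⟩⟩
  have : SecondCountableTopology A := UniformSpace.secondCountable_of_separable A
  obtain ⟨s, hs⟩ := TopologicalSpace.exists_dense_seq {a : A // 0 ≤ a ∧ ‖a‖ ≤ 1}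
  obtain ⟨e, he1, hes, hu⟩ := Vale.Agent.P095.Relative.exists_unitSeq (A := A)
  have hg : ∀ n : ℕ, ∃ g : A, star g = g ∧ ‖g‖ ≤ 1 ∧
      ∀ j ∈ Finset.range (n + 1), ‖g * (s j : A) - s j‖ ≤ 1 / ((n : ℝ) + 1) := fun n => by
    obtain ⟨N, hN⟩ := ((Finset.range (n + 1)).eventually_all.2 fun j _ =>
      (hu (s j : A)).1.eventually
        (Iic_mem_nhds (show (0 : ℝ) < 1 / ((n : ℝ) + 1) by positivity))).exists
    exact ⟨e N, hes N, he1 N, hN⟩
  choose g hgs hg1 hgc using hg
  let X : ℕ → Finset A := fun n => (Finset.range (n + 1)).biUnion fun j =>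
    {g n * g n, g n * ((s j : A) * s j), (s j : A) * s j * g n, (s j : A) * s j,
      (s j : A) * s j * ((s j : A) * s j)}
  choose L col sz ψ φ hh using fun n : ℕ => hd (X n) (1 / ((n : ℝ) + 1)) (by positivity)
  choose D hDe hgood hsum using fun n : ℕ => exists_colours (col n) (sz n) (ψ n) (φ n)
    (hh n).1 (hh n).2.1 (hh n).2.2.1 (hgs n) (hg1 n)
  let S : Set (Unitization ℂ A) :=
    Set.range fun j => (((s j : A) * s j : A) : Unitization ℂ A)
  refine ⟨d, S, D, ?_, ?_, ?_⟩
  · rintro _ ⟨j, rfl⟩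
    have h0 : 0 ≤ (s j : A) * s j := by
      simpa [(IsSelfAdjoint.of_nonneg (s j).2.1).star_eq] using star_mul_self_nonneg (s j : A)
    refine ⟨⟨_, rfl⟩, Unitization.inr_nonneg_iff.2 h0,
      (CStarAlgebra.norm_le_one_iff_of_nonneg _ (Unitization.inr_nonneg_iff.2 h0)).1 ?_⟩
    rw [Unitization.norm_inr]
    exact (norm_mul_le _ _).trans (mul_le_one₀ (s j).2.2 (norm_nonneg _) (s j).2.2)
  · rintro _ ⟨x, rfl⟩
    let M : Submodule ℂ A :=
      { carrier := {x : A | ((x : A) : Unitization ℂ A) ∈ (Submodule.span ℂ S).topologicalClosure}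
        zero_mem' := by simp
        add_mem' := fun {x y} hx hy => by
          show ((x + y : A) : Unitization ℂ A) ∈ (Submodule.span ℂ S).topologicalClosure
          rw [Unitization.inr_add]
          exact Submodule.add_mem _ hx hy
        smul_mem' := fun t x hx => by
          show ((t • x : A) : Unitization ℂ A) ∈ (Submodule.span ℂ S).topologicalClosure
          rw [Unitization.inr_smul]
          exact Submodule.smul_mem _ t hx }
    have hball : ∀ x : A, 0 ≤ x → ‖x‖ ≤ 1 → x ∈ M := by
      intro x hx hx1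
      have hr : ‖CFC.sqrt x‖ ≤ 1 := by
        have hsa : star (CFC.sqrt x) = CFC.sqrt x :=
          (IsSelfAdjoint.of_nonneg (CFC.sqrt_nonneg x)).star_eq
        have := CStarRing.norm_star_mul_self (x := CFC.sqrt x)
        rw [hsa, CFC.sqrt_mul_sqrt_self x hx] at this
        nlinarith [norm_nonneg (CFC.sqrt x)]
      let t : {a : A // 0 ≤ a ∧ ‖a‖ ≤ 1} := ⟨CFC.sqrt x, CFC.sqrt_nonneg x, hr⟩
      have hmem : ((((t : A) * t : A)) : Unitization ℂ A) ∈ closure S :=
        map_mem_closure
          (f := fun b : {a : A // 0 ≤ a ∧ ‖a‖ ≤ 1} => (((b : A) * b : A) : Unitization ℂ A))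
          ((Unitization.isometry_inr (𝕜 := ℂ) (A := A)).continuous.comp
            (continuous_subtype_val.mul continuous_subtype_val))
          (hs t) (by rintro _ ⟨j, rfl⟩; exact ⟨j, rfl⟩)
      show ((x : A) : Unitization ℂ A) ∈ (Submodule.span ℂ S).topologicalClosure
      rw [← CFC.sqrt_mul_sqrt_self x hx, ← SetLike.mem_coe, Submodule.topologicalClosure_coe]
      exact closure_mono Submodule.subset_span hmem
    have hpos : ∀ x : A, 0 ≤ x → x ∈ M := by
      intro x hx
      have hc : (0 : ℝ) < ‖x‖ + 1 := by positivity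
      have hx' : (‖x‖ + 1)⁻¹ • x ∈ M := by
        refine hball _ (smul_nonneg (by positivity) hx) ?_
        rw [norm_smul, Real.norm_eq_abs, abs_of_pos (inv_pos.2 hc), inv_mul_le_one₀ hc]
        linarith
      have := M.smul_mem ((‖x‖ + 1 : ℝ) : ℂ) hx'
      rwa [Complex.coe_smul, smul_smul, mul_inv_cancel₀ hc.ne', one_smul] at this
    have hx : x ∈ Submodule.span ℂ {z : A | 0 ≤ z} := by rw [CStarAlgebra.span_nonneg]; trivial
    have h : ((x : A) : Unitization ℂ A) ∈ (Submodule.span ℂ S).topologicalClosure :=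
      Submodule.span_le.2 hpos hx
    rwa [← SetLike.mem_coe, Submodule.topologicalClosure_coe] at h
  · rintro _ ⟨j, rfl⟩
    have hclose : ∀ n x, x ∈ X n →
        ‖∑ c, etaA (D n) c x - ((x : A) : Unitization ℂ A)‖ ≤ 1 / ((n : ℝ) + 1) := fun n x hx => by
      rw [hsum, ← Unitization.inr_sub, Unitization.norm_inr]
      exact (hh n).2.2.2 x hx
    have h10 := tendsto_one_div_add_atTop_nhds_zero_nat (𝕜 := ℝ)
    have hs0 : Tendsto (fun n : ℕ => √(4 * (1 / ((n : ℝ) + 1)) +
        1 / ((n : ℝ) + 1) * (1 / ((n : ℝ) + 1))) + 1 / ((n : ℝ) + 1)) atTop (𝓝 0) := by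
      simpa using (((h10.const_mul 4).add (h10.mul h10)).sqrt).add h10
    have hmem : ∀ᶠ n in atTop, ∀ x ∈ ({g n * g n, g n * ((s j : A) * s j), (s j : A) * s j * g n,
        (s j : A) * s j, (s j : A) * s j * ((s j : A) * s j)} : Finset A), x ∈ X n := by
      filter_upwards [eventually_ge_atTop j] with n hn x hx
      exact Finset.mem_biUnion.2 ⟨j, Finset.mem_range.2 (by omega), hx⟩
    have hb : ∀ᶠ n in atTop, ∀ c,
        ‖(D n).eta c (D n).e * (((s j : A) * s j : A) : Unitization ℂ A) -
            (D n).eta c (((s j : A) * s j : A) : Unitization ℂ A)‖ ≤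
          √(4 * (1 / ((n : ℝ) + 1)) + 1 / ((n : ℝ) + 1) * (1 / ((n : ℝ) + 1))) +
            1 / ((n : ℝ) + 1) ∧
        ‖(((s j : A) * s j : A) : Unitization ℂ A) * (D n).eta c (D n).e -
            (D n).eta c (((s j : A) * s j : A) : Unitization ℂ A)‖ ≤
          √(4 * (1 / ((n : ℝ) + 1)) + 1 / ((n : ℝ) + 1) * (1 / ((n : ℝ) + 1))) +
            1 / ((n : ℝ) + 1) := by
      filter_upwards [hmem, eventually_ge_atTop j] with n hn hj c
      rw [hDe n]
      exact (hgood n).eta_mul_close c (hgs n) (IsSelfAdjoint.of_nonneg (s j).2.1).star_eq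
        (hg1 n) (s j).2.2 (hgc n j (Finset.mem_range.2 (by omega)))
        (hclose n _ (hn _ (by simp))) (hclose n _ (hn _ (by simp)))
        (hclose n _ (hn _ (by simp))) (hclose n _ (hn _ (by simp)))
    refine ⟨fun c => ⟨?_, ?_⟩, ?_⟩
    · exact squeeze_zero' (Eventually.of_forall fun n => norm_nonneg _)
        (hb.mono fun n hn => (hn c).1) hs0
    · exact squeeze_zero' (Eventually.of_forall fun n => norm_nonneg _)
        (hb.mono fun n hn => (hn c).2) hs0
    · exact squeeze_zero' (Eventually.of_forall fun n => norm_nonneg _)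
        (hmem.mono fun n hn => hclose n _ (hn _ (by simp))) h10

end Vale.Agent.P133.NucDimGen
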