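import Vale.Agent.P133.NucDimGen.Slots
import Vale.Agent.P133.NucDim.Block
import Vale.Agent.P133.NucDim.Central

/-!
P133, finite nuclear dimension without unit: the blocks leave no character on the central
sequence algebra modulo the annihilator, so there is a central dimension drop there.
-/

noncomputable section

namespace Vale.Agent.P133.NucDimGen

open Filter Topology Vale.Agent.P101 Vale.Agent.P133.FinDim
open scoped BoundedContinuousFunction ComplexOrder

universe u

variable {A : Type u} [CStarAlgebra A] [PartialOrder A] [StarOrderedRing A] {A₀ : Set A}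

omit [StarOrderedRing A] in
/-- Sequences commuting with a spanning family of the ideal are central. -/
theorem crit_of_span (hI : IsClosedIdeal A₀) (hspan : ∀ b : A, ∃ r : ℂ, b - r • 1 ∈ A₀) {S : Set A}
    (hS : ∀ a ∈ S, a ∈ A₀ ∧ 0 ≤ a ∧ a ≤ 1) (hden : A₀ ⊆ closure (Submodule.span ℂ S : Set A))
    (f : ℕ → A) (hb : ∃ C, ∀ n, ‖f n‖ ≤ C)
    (hf : ∀ a ∈ S, Tendsto (fun n => ‖a * f n - f n * a‖) atTop (𝓝 0)) :
    ∀ a, Tendsto (fun n => ‖a * f n - f n * a‖) atTop (𝓝 0) := by
  obtain ⟨C, hC⟩ := hb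
  let F : ℕ →ᵇ A := NucDim.bseq f C hC
  set w := seqMk A atTop F with hw
  have hlim : ∀ a, iota a * w = w * iota a ↔
      Tendsto (fun n => ‖a * f n - f n * a‖) atTop (𝓝 0) := fun a => by
    rw [hw, iota, ← map_mul, ← map_mul, seqMk_eq_iff]
    rfl
  intro b
  obtain ⟨r, hr⟩ := hspan b
  have hcl : IsClosed {z : A | iota z * w = w * iota z} :=
    isClosed_eq ((continuous_mul_const w).comp continuous_iota)
      ((continuous_const_mul w).comp continuous_iota)
  have h1 : iota (b - r • 1) * w = w * iota (b - r • 1) := by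
    refine hcl.closure_subset_iff.2 ?_ (hden hr)
    intro z hz
    rw [SetLike.mem_coe] at hz
    refine Submodule.span_induction (p := fun z _ => iota z * w = w * iota z)
      (fun a ha => (hlim a).2 (hf a ha)) ?_ ?_ ?_ hz
    · rw [iota_zero, zero_mul, mul_zero]
    · intro x y _ _ hx hy; rw [iota_add, add_mul, mul_add, hx, hy]
    · intro s x _ hx; rw [iota_smul, smul_mul_assoc, hx, mul_smul_comm]
  refine (hlim b).1 ?_
  have e : b = (b - r • 1) + r • 1 := (sub_add_cancel b _).symm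
  rw [e, iota_add, iota_smul, iota_one, add_mul, mul_add, h1, smul_one_mul, mul_smul_comm, mul_one]

namespace Colours

variable {d : ℕ} (D : Colours A₀ d) (c : Fin (d + 1))

/-- The blocks of one colour. -/
def blocks : Finset (Fin D.L) := Finset.univ.filter fun l => D.col l = c

/-- The sum over one colour. -/
def colSum (X : Fin D.L → A) : A := ∑ l ∈ D.blocks c, X l

variable {D c}

theorem orth_blocks {l l' : Fin D.L} (hl : l ∈ D.blocks c) (hl' : l' ∈ D.blocks c) (h : l ≠ l') :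
    (D.U l).H * (D.U l').H = 0 := by
  simp only [blocks, Finset.mem_filter] at hl hl'
  exact D.orth l l' (hl.2.trans hl'.2.symm) h

theorem eta_one_le (D : Colours A₀ d) (c : Fin (d + 1)) :
    0 ≤ D.eta c D.e ∧ D.eta c D.e ≤ D.colSum c fun l => (D.U l).H := by
  choose w hw h0 h1 using fun l => D.rep l D.e D.e_mem D.e_nonneg D.e_le_one
  exact ⟨Finset.sum_nonneg fun l _ => h0 l, Finset.sum_le_sum fun l _ => h1 l⟩

theorem p_rep {a : A} (ha : a ∈ A₀) (h0 : 0 ≤ a) (h1 : a ≤ 1) (l : Fin D.L) :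
    ∃ w : Matrix (Fin (D.size l)) (Fin (D.size l)) ℂ, D.p l a = (D.U l).app (star w * w) ∧
      0 ≤ D.p l a ∧ D.p l a ≤ 1 := by
  obtain ⟨w, hw, hw0, hw1⟩ := D.rep l a ha h0 h1
  exact ⟨w, hw, hw0, hw1.trans (D.U l).sum_le⟩

theorem H_corner_mem (hI : IsClosedIdeal A₀) (l : Fin D.L) (o : Fin (D.size l)) :
    (D.U l).E o o ∈ A₀ := by
  have h2 : (D.U l).E o o * (D.U l).E o o ∈ A₀ := by
    rw [← (D.U l).H_mul_E o o]
    exact hI.mul_right _ _ (D.H_mem l)
  have := hI.sqrt_mem ((IsSelfAdjoint.of_nonneg ((D.U l).nonneg o)).mul_self_nonneg) h2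
  rwa [CFC.sqrt_mul_self _ ((D.U l).nonneg o)] at this

variable {δ C : ℝ} {X Y : Fin D.L → A}

theorem mul_eq_zero_of_good (hY : ∀ l, (D.U l).Good δ C (Y l)) {z : A} {l' : Fin D.L}
    (hz : z * (D.U l').H = 0) : z * Y l' = 0 := by
  obtain ⟨y, hy⟩ := (hY l').left
  rw [hy, ← mul_assoc, hz, zero_mul]

theorem good_mul_H (hX : ∀ l, (D.U l).Good δ C (X l)) {l l' : Fin D.L} (hl : l ∈ D.blocks c)
    (hl' : l' ∈ D.blocks c) (h : l ≠ l') : X l * (D.U l').H = 0 ∧ (D.U l').H * X l = 0 := by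
  obtain ⟨y, hy⟩ := (hX l).right
  obtain ⟨y', hy'⟩ := (hX l).left
  refine ⟨?_, ?_⟩
  · rw [hy, mul_assoc, orth_blocks hl hl' h, mul_zero]
  · rw [hy', ← mul_assoc, orth_blocks hl' hl h.symm, zero_mul]

theorem app_mul_H {l l' : Fin D.L} (hl : l ∈ D.blocks c) (hl' : l' ∈ D.blocks c) (h : l ≠ l')
    (m : Matrix (Fin (D.size l)) (Fin (D.size l)) ℂ) :
    (D.U l).app m * (D.U l').H = 0 ∧ (D.U l').H * (D.U l).app m = 0 :=
  ⟨(D.U l).app_mul_eq_zero (orth_blocks hl hl' h) m,
    (D.U l).mul_app_eq_zero (orth_blocks hl' hl h.symm) m⟩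

theorem colSum_mul {δ' C' : ℝ} (hX : ∀ l, (D.U l).Good δ C (X l))
    (hY : ∀ l, (D.U l).Good δ' C' (Y l)) :
    D.colSum c X * D.colSum c Y = D.colSum c fun l => X l * Y l := by
  simp only [colSum, Finset.sum_mul_sum]
  refine Finset.sum_congr rfl fun l hl => ?_
  exact Finset.sum_eq_single_of_mem l hl fun l' hl' h =>
    mul_eq_zero_of_good hY (good_mul_H hX hl hl' h.symm).1

theorem norm_colSum_le {Z : Fin D.L → A} (hC : 0 ≤ C) (hn : ∀ l ∈ D.blocks c, ‖Z l‖ ≤ C)
    (h : ∀ l ∈ D.blocks c, ∀ l' ∈ D.blocks c, l ≠ l' →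
      star (Z l) * Z l' = 0 ∧ Z l * star (Z l') = 0) : ‖D.colSum c Z‖ ≤ C :=
  NucDim.norm_sum_orth_le _ _ (fun i hi j hj hij => (h i hi j hj hij).1)
    (fun i hi j hj hij => (h i hi j hj hij).2) hC hn

/-- Elements `z` of the form `H y` and `y H`, summed with orthogonality. -/
theorem norm_colSum_range_le {Z : Fin D.L → A} (hC : 0 ≤ C) (hn : ∀ l ∈ D.blocks c, ‖Z l‖ ≤ C)
    (hl : ∀ l, ∃ y, Z l = (D.U l).H * y) (hr : ∀ l, ∃ y, Z l = y * (D.U l).H) :
    ‖D.colSum c Z‖ ≤ C := by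
  refine norm_colSum_le hC hn fun l hml l' hml' hne => ?_
  have hs : ∀ k, star (D.U k).H = (D.U k).H := fun k =>
    (IsSelfAdjoint.of_nonneg (D.U k).H_nonneg).star_eq
  obtain ⟨y, hy⟩ := hl l
  obtain ⟨y', hy'⟩ := hl l'
  obtain ⟨z, hz⟩ := hr l
  obtain ⟨z', hz'⟩ := hr l'
  refine ⟨?_, ?_⟩
  · rw [hy, hy', star_mul, hs, mul_assoc, ← mul_assoc (D.U l).H, orth_blocks hml hml' hne,
      zero_mul, mul_zero]
  · rw [hz, hz', star_mul, hs, mul_assoc, ← mul_assoc (D.U l).H, orth_blocks hml hml' hne,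
      zero_mul, mul_zero]

theorem norm_colSum_good_le (hC : 0 ≤ C) (hX : ∀ l, (D.U l).Good δ C (X l)) :
    ‖D.colSum c X‖ ≤ C :=
  norm_colSum_range_le hC (fun l _ => (hX l).norm_le) (fun l => (hX l).left) fun l => (hX l).right

theorem norm_eta_one_le (D : Colours A₀ d) (c : Fin (d + 1)) : ‖D.eta c D.e‖ ≤ 1 :=
  (CStarAlgebra.norm_le_norm_of_nonneg_of_le (D.eta_one_le c).1 (D.eta_one_le c).2).trans
    (norm_colSum_good_le zero_le_one fun l => (D.U l).good_H)

/-- The commutator with the colour map is the largest commutator in a block. -/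
theorem norm_comm_eta_le (hδ : 0 ≤ δ) (hX : ∀ l, (D.U l).Good δ C (X l)) {a : A} (ha : a ∈ A₀)
    (h0 : 0 ≤ a) (h1 : a ≤ 1) : ‖D.colSum c X * D.eta c a - D.eta c a * D.colSum c X‖ ≤ δ := by
  set p : Fin D.L → A := fun l => D.p l a with hp
  choose w hw hw0 hw1 using p_rep (D := D) ha h0 h1
  have hps : ∀ l, star (p l) = p l := fun l => (IsSelfAdjoint.of_nonneg (hw0 l)).star_eq
  have hpH : ∀ l ∈ D.blocks c, ∀ l' ∈ D.blocks c, l ≠ l' →
      p l * (D.U l').H = 0 ∧ (D.U l').H * p l = 0 := fun l hl l' hl' h => by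
    simp only [hp, hw]; exact app_mul_H hl hl' h _
  have e : D.colSum c X * D.eta c a - D.eta c a * D.colSum c X =
      D.colSum c fun l => X l * p l - p l * X l := by
    simp only [colSum, eta, ← blocks.eq_1, Finset.sum_mul_sum, Finset.sum_sub_distrib]
    congr 1
    · refine Finset.sum_congr rfl fun l hl => Finset.sum_eq_single_of_mem l hl fun l' hl' h => ?_
      obtain ⟨y, hy⟩ := (hX l).right
      rw [hy, mul_assoc, (hpH l' hl' l hl h).2, mul_zero]
    · refine Finset.sum_congr rfl fun l hl => Finset.sum_eq_single_of_mem l hl fun l' hl' h => ?_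
      exact mul_eq_zero_of_good hX (hpH l hl l' hl' h.symm).1
  rw [e]
  refine norm_colSum_le hδ (fun l _ => ?_) fun l hl l' hl' h => ?_
  · simp only [hp, hw]
    exact (hX l).comm (w l) (hw l ▸ hw0 l) (hw l ▸ hw1 l)
  -- everything from the right or the left of the block `l` kills the block `l'`
  have hs : ∀ k, star (D.U k).H = (D.U k).H := fun k =>
    (IsSelfAdjoint.of_nonneg (D.U k).H_nonneg).star_eq
  have hT : ∀ i ∈ D.blocks c, ∀ j ∈ D.blocks c, i ≠ j →
      (X i * p i - p i * X i) * (D.U j).H = 0 ∧ (D.U j).H * (X i * p i - p i * X i) = 0 := by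
    intro i hi j hj hij
    constructor
    · rw [sub_mul, mul_assoc, (hpH i hi j hj hij).1, mul_zero, mul_assoc,
        (good_mul_H hX hi hj hij).1, mul_zero, sub_zero]
    · rw [mul_sub, ← mul_assoc, (good_mul_H hX hi hj hij).2, zero_mul, ← mul_assoc,
        (hpH i hi j hj hij).2, zero_mul, sub_zero]
  have hkill : ∀ z : A, z * (D.U l').H = 0 → z * (X l' * p l' - p l' * X l') = 0 := by
    intro z hz
    rw [mul_sub, ← mul_assoc, mul_eq_zero_of_good hX hz, zero_mul, ← mul_assoc,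
      (show z * p l' = 0 by simp only [hp, hw]; exact (D.U l').mul_app_eq_zero hz _), zero_mul, sub_zero]
  refine ⟨hkill _ ?_, ?_⟩
  · rw [← hs l', ← star_mul, (hT l hl l' hl' h).2, star_zero]
  · have hk : (D.U l').H * star (X l * p l - p l * X l) = 0 := by
      rw [← hs l', ← star_mul, (hT l hl l' hl' h).1, star_zero]
    obtain ⟨y, hy⟩ := (hX l').right
    have h2 : (X l' * p l' - p l' * X l') * star (X l * p l - p l * X l) = 0 := by
      rw [sub_mul, mul_assoc, (show p l' * star (X l * p l - p l * X l) = 0 by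
          simp only [hp, hw] at hk ⊢; exact (D.U l').app_mul_eq_zero hk _), mul_zero, mul_assoc, hy,
        mul_assoc y, hk, mul_zero, mul_zero, sub_zero]
    rw [← star_star (X l * p l - p l * X l), ← star_mul, h2, star_zero]

end Colours

section Classes

variable {d : ℕ} (D : ℕ → Colours A₀ d) (c : Fin (d + 1))

/-- The class of the colour `c` of the unit. -/
def hCls : SeqQuot A atTop :=
  seqMk A atTop (NucDim.bseq (fun n => (D n).eta c (D n).e) 1 fun n => (D n).norm_eta_one_le c)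

/-- A family of good elements, one for each block. -/
structure Fam (δ : ℕ → ℝ) (C : ℝ) where
  /-- The elements. -/
  el : ∀ n, Fin (D n).L → A
  good : ∀ n l, ((D n).U l).Good (δ n) C (el n l)
  nonneg : 0 ≤ C
  delta : ∀ n, 0 ≤ δ n
  lim : Tendsto δ atTop (𝓝 0)

variable {D}

/-- The class of one colour of a family. -/
def Fam.cls {δ : ℕ → ℝ} {C : ℝ} (X : Fam D δ C) : SeqQuot A atTop :=
  seqMk A atTop (NucDim.bseq (fun n => (D n).colSum c (X.el n)) C fun n =>
    Colours.norm_colSum_good_le X.nonneg (X.good n))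

variable {δ : ℕ → ℝ} {C : ℝ} (X : Fam D δ C)

/-- Families commute with the colour of the unit. -/
theorem Fam.commute_hCls : Commute (hCls D c) (X.cls c) := by
  rw [Commute, SemiconjBy, hCls, Fam.cls, ← map_mul, ← map_mul, seqMk_eq_iff]
  refine squeeze_zero (fun n => norm_nonneg _) (fun n => ?_) X.lim
  rw [norm_sub_rev]
  exact Colours.norm_comm_eta_le (X.delta n) (X.good n) (D n).e_mem (D n).e_nonneg (D n).e_le_one

theorem norm_cls_le : ‖X.cls c‖ ≤ C :=
  (norm_seqMk_le _).trans (BoundedContinuousFunction.norm_ofNormedAddCommGroup_le _ X.nonneg _)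

theorem norm_hCls_le (D : ℕ → Colours A₀ d) : ‖hCls D c‖ ≤ 1 :=
  (norm_seqMk_le _).trans (BoundedContinuousFunction.norm_ofNormedAddCommGroup_le _ zero_le_one _)

/-- The cube identity of a colour. -/
theorem norm_cube_le {ι : Type*} [Fintype ι] {δ' : ℕ → ℝ} {C' C₂ : ℝ} (fa fs fb : ι → Fam D δ' C')
    (fG : Fam D δ' C₂) {ε : ℝ} (hε : 0 ≤ ε)
    (hsum : ∀ n l, ‖fG.el n l - ∑ p, (fa p).el n l * (fs p).el n l * (fb p).el n l‖ ≤ ε) :
    ‖hCls D c * hCls D c * (hCls D c * fG.cls c) -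
      ∑ p, hCls D c * (fa p).cls c * (hCls D c * (fs p).cls c) * (hCls D c * (fb p).cls c)‖ ≤ ε := by
  set h := hCls D c
  have hh1 : ‖h‖ ≤ 1 := norm_hCls_le c D
  let Z : ℕ →ᵇ A := NucDim.bseq (fun n => (D n).colSum c fun l => fG.el n l - ∑ p, (fa p).el n l * (fs p).el n l * (fb p).el n l)
    ε fun n => Colours.norm_colSum_range_le hε (fun l _ => hsum n l) (fun l => ?_)
      fun l => ?_
  · have eE : h * h * (h * fG.cls c) -
        ∑ p, h * (fa p).cls c * (h * (fs p).cls c) * (h * (fb p).cls c) =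
          h * h * h * seqMk A atTop Z := by
      have ep : ∀ p, h * (fa p).cls c * (h * (fs p).cls c) * (h * (fb p).cls c) =
          h * h * h * ((fa p).cls c * (fs p).cls c * (fb p).cls c) := fun p => by
        have ca := ((fa p).commute_hCls c).eq
        have cs := ((fs p).commute_hCls c).eq
        have ca' : ∀ x, (fa p).cls c * (h * x) = h * ((fa p).cls c * x) := fun x => by
          rw [← mul_assoc, ← ca, mul_assoc]
        have cs' : ∀ x, (fs p).cls c * (h * x) = h * ((fs p).cls c * x) := fun x => by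
          rw [← mul_assoc, ← cs, mul_assoc]
        simp only [mul_assoc, ca', cs']
      rw [Finset.sum_congr rfl fun p _ => ep p, ← Finset.mul_sum, ← mul_assoc, ← mul_sub]
      congr 1
      simp only [Fam.cls, ← map_mul, ← map_sum, ← map_sub]
      refine congrArg (seqMk A atTop) (BoundedContinuousFunction.ext fun n => ?_)
      show _ = (D n).colSum c fun l => fG.el n l - ∑ p, (fa p).el n l * (fs p).el n l * (fb p).el n l
      simp only [Colours.colSum, Finset.sum_sub_distrib]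
      rw [Finset.sum_comm]
      rw [BoundedContinuousFunction.coe_sub, Pi.sub_apply, BoundedContinuousFunction.coe_sum,
        Finset.sum_apply]
      refine congrArg₂ _ rfl (Finset.sum_congr rfl fun p _ => ?_)
      show (D n).colSum c ((fa p).el n) * (D n).colSum c ((fs p).el n) *
          (D n).colSum c ((fb p).el n) = _
      rw [Colours.colSum_mul ((fa p).good n) ((fs p).good n)]
      simp only [Colours.colSum, Finset.sum_mul_sum]
      refine Finset.sum_congr rfl fun l hl => Finset.sum_eq_single_of_mem l hl fun l' hl' hne => ?_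
      rw [mul_assoc, Colours.mul_eq_zero_of_good ((fb p).good n)
        (Colours.good_mul_H ((fs p).good n) hl hl' hne.symm).1, mul_zero]
    rw [eE]
    refine (norm_mul_le _ _).trans ?_
    refine (mul_le_mul ((norm_mul₃_le).trans (by
      calc ‖h‖ * ‖h‖ * ‖h‖ ≤ 1 * 1 * 1 := by gcongr
        _ = 1 := by norm_num)) ((norm_seqMk_le Z).trans
      (BoundedContinuousFunction.norm_ofNormedAddCommGroup_le _ hε _))
      (norm_nonneg _) zero_le_one).trans_eq (one_mul _)
  · obtain ⟨y, hy⟩ := (fG.good n l).left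
    choose z hz using fun p => ((fa p).good n l).left
    refine ⟨y - ∑ p, z p * (fs p).el n l * (fb p).el n l, ?_⟩
    rw [mul_sub, Finset.mul_sum, ← hy]
    simp only [← mul_assoc, ← hz]
  · obtain ⟨y, hy⟩ := (fG.good n l).right
    choose z hz using fun p => ((fb p).good n l).right
    refine ⟨y - ∑ p, (fa p).el n l * (fs p).el n l * z p, ?_⟩
    rw [sub_mul, Finset.sum_mul, ← hy]
    simp only [mul_assoc, ← hz]

/-- The corrected square of a colour. -/
theorem norm_square_le {δ₁ δ₂ : ℕ → ℝ} {C₁ C₂ C₃ : ℝ} (fG : Fam D δ₁ C₁) (fF : Fam D δ₁ C₂)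
    (fH : Fam D δ₂ C₃) {ε : ℝ}
    (hGF : ∀ n l, ‖fG.el n l * fF.el n l - fH.el n l * fH.el n l‖ ≤ ε) (hε : 0 ≤ ε) :
    ‖hCls D c * fG.cls c * (hCls D c * fF.cls c) - hCls D c * fH.cls c * (hCls D c * fH.cls c)‖ ≤ ε := by
  set h := hCls D c
  have hh1 : ‖h‖ ≤ 1 := norm_hCls_le c D
  have eE : h * fG.cls c * (h * fF.cls c) - h * fH.cls c * (h * fH.cls c) =
      h * h * (fG.cls c * fF.cls c - fH.cls c * fH.cls c) := by
    rw [mul_sub]
    congr 1
    · rw [mul_assoc h, ← mul_assoc (fG.cls c), ← (fG.commute_hCls c).eq]; noncomm_ring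
    · rw [mul_assoc h, ← mul_assoc (fH.cls c), ← (fH.commute_hCls c).eq]; noncomm_ring
  rw [eE]
  refine norm_mul₃_le.trans ?_
  refine (mul_le_mul (mul_le_one₀ hh1 (norm_nonneg _) hh1) ?_ (norm_nonneg _)
    zero_le_one).trans_eq (one_mul _)
  simp only [Fam.cls, ← map_mul, ← map_sub]
  refine (norm_seqMk_le _).trans ((BoundedContinuousFunction.norm_le hε).2 fun n => ?_)
  show ‖(D n).colSum c (fG.el n) * (D n).colSum c (fF.el n) -
    (D n).colSum c (fH.el n) * (D n).colSum c (fH.el n)‖ ≤ _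
  rw [Colours.colSum_mul (fG.good n) (fF.good n), Colours.colSum_mul (fH.good n) (fH.good n),
    Colours.colSum, Colours.colSum, ← Finset.sum_sub_distrib]
  refine Colours.norm_colSum_range_le (D := D n) (c := c) hε
    (fun l _ => hGF n l) (fun l => ?_) fun l => ?_
  · obtain ⟨y, hy⟩ := (fG.good n l).left
    obtain ⟨z, hz⟩ := (fH.good n l).left
    exact ⟨y * fF.el n l - z * fH.el n l, by rw [mul_sub, ← mul_assoc, ← hy, ← mul_assoc, ← hz]⟩
  · obtain ⟨y, hy⟩ := (fF.good n l).right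
    obtain ⟨z, hz⟩ := (fH.good n l).right
    exact ⟨fG.el n l * y - fH.el n l * z, by rw [sub_mul, mul_assoc, ← hy, mul_assoc, ← hz]⟩

/-- The diagonal of a colour dominates the colour of the unit. -/
theorem lower_bound (χ : centSub A atTop →⋆ₐ[ℂ] ℂ) (fH : Fam D (fun _ => 0) 1)
    (hH : ∀ n l, fH.el n l = ((D n).U l).H) (hh : hCls D c ∈ centSub A atTop)
    (hm : hCls D c * fH.cls c ∈ centSub A atTop) {t : ℝ}
    (ht : χ ⟨hCls D c, hh⟩ = (t : ℂ)) : t * t ≤ ‖χ ⟨hCls D c * fH.cls c, hm⟩‖ := by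
  set kH : centSub A atTop := ⟨hCls D c * fH.cls c, hm⟩
  set hK : centSub A atTop := ⟨hCls D c, hh⟩
  set Y : centSub A atTop := kH - hK * hK
  obtain ⟨hY0, hY1⟩ := NucDim.char_nonneg χ (y := Y)
    (f := NucDim.bseq (fun n => (D n).eta c (D n).e) 1 (fun n => (D n).norm_eta_one_le c) *
      (NucDim.bseq (fun n => (D n).colSum c (fH.el n)) 1
        (fun n => Colours.norm_colSum_good_le zero_le_one (fH.good n)) -
        NucDim.bseq (fun n => (D n).eta c (D n).e) 1 fun n => (D n).norm_eta_one_le c))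
    (by
      simp only [Y, kH, hK]
      push_cast
      rw [map_mul, map_sub, mul_sub]
      rfl)
    (fun n => by
      show 0 ≤ (D n).eta c (D n).e * ((D n).colSum c (fH.el n) - (D n).eta c (D n).e)
      have hcm : (D n).colSum c (fH.el n) * (D n).eta c (D n).e =
          (D n).eta c (D n).e * (D n).colSum c (fH.el n) := sub_eq_zero.1 (norm_le_zero_iff.1
        (Colours.norm_comm_eta_le le_rfl (fH.good n) (D n).e_mem (D n).e_nonneg (D n).e_le_one))
      refine Commute.mul_nonneg ((D n).eta_one_le c).1 (sub_nonneg.2 ((((D n).eta_one_le c).2).trans_eq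
        (Finset.sum_congr rfl fun l _ => (hH n l).symm))) ?_
      exact (Commute.sub_right hcm.symm (Commute.refl _)))
  have hYv : χ Y = χ kH - (t : ℂ) * t := by simp [Y, ht]
  rw [hYv] at hY0 hY1
  have hre : (χ kH - (t : ℂ) * t).re = (χ kH).re - t * t := by simp
  rw [hre] at hY0
  exact le_trans (by linarith) (Complex.re_le_norm _)

variable {S : Set A} (hS : ∀ a ∈ S, a ∈ A₀ ∧ 0 ≤ a ∧ a ≤ 1)
  (hcrit : ∀ f : ℕ → A, (∃ C, ∀ n, ‖f n‖ ≤ C) →
    (∀ a ∈ S, Tendsto (fun n => ‖a * f n - f n * a‖) atTop (𝓝 0)) →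
    ∀ a, Tendsto (fun n => ‖a * f n - f n * a‖) atTop (𝓝 0))
  (happx : ∀ a ∈ S, Tendsto (fun n => ‖(D n).eta c (D n).e * a - (D n).eta c a‖) atTop (𝓝 0) ∧
    Tendsto (fun n => ‖a * (D n).eta c (D n).e - (D n).eta c a‖) atTop (𝓝 0))

include hS hcrit happx

theorem hCls_mem : hCls D c ∈ centSub A atTop := by
  rw [hCls, mem_centSub]
  refine hcrit _ ⟨1, fun n => (D n).norm_eta_one_le c⟩ fun a ha => ?_
  obtain ⟨e1, e2⟩ := happx a ha
  refine squeeze_zero (fun n => norm_nonneg _) (fun n => ?_) (by simpa using e2.add e1)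
  show ‖a * (D n).eta c (D n).e - (D n).eta c (D n).e * a‖ ≤ _
  rw [← sub_sub_sub_cancel_right _ _ ((D n).eta c a)]
  exact norm_sub_le _ _

theorem Fam.mul_mem : hCls D c * X.cls c ∈ centSub A atTop := by
  rw [hCls, Fam.cls, ← map_mul, mem_centSub]
  refine hcrit _ ⟨1 * C, fun n => (norm_mul_le _ _).trans (mul_le_mul ((D n).norm_eta_one_le c)
    (Colours.norm_colSum_good_le X.nonneg (X.good n)) (norm_nonneg _) zero_le_one)⟩ fun a ha => ?_
  obtain ⟨e1, e2⟩ := happx a ha
  have hlim := (((e2.mul_const C).add X.lim).add (e1.const_mul C)).add X.lim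
  refine squeeze_zero (fun n => norm_nonneg _) (fun n => ?_) (by simpa using hlim)
  show ‖a * ((D n).eta c (D n).e * (D n).colSum c (X.el n)) -
    (D n).eta c (D n).e * (D n).colSum c (X.el n) * a‖ ≤ _
  set h := (D n).eta c (D n).e
  set p := (D n).eta c a
  set x := (D n).colSum c (X.el n)
  have hx : ‖x‖ ≤ C := Colours.norm_colSum_good_le X.nonneg (X.good n)
  have ha1 : ‖a‖ ≤ 1 := (CStarAlgebra.norm_le_one_iff_of_nonneg a (hS a ha).2.1).2 (hS a ha).2.2
  have c1 : ‖p * x - x * p‖ ≤ δ n := by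
    rw [norm_sub_rev]
    exact Colours.norm_comm_eta_le (X.delta n) (X.good n) (hS a ha).1 (hS a ha).2.1 (hS a ha).2.2
  have c2 : ‖x * h - h * x‖ ≤ δ n :=
    Colours.norm_comm_eta_le (X.delta n) (X.good n) (D n).e_mem (D n).e_nonneg (D n).e_le_one
  have e : a * (h * x) - h * x * a =
      (a * h - p) * x + (p * x - x * p) + x * (p - h * a) + (x * h - h * x) * a := by noncomm_ring
  rw [e]
  refine (norm_add_le _ _).trans (add_le_add ((norm_add_le _ _).trans (add_le_add
    ((norm_add_le _ _).trans (add_le_add ?_ c1)) ?_)) ?_)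
  · exact (norm_mul_le _ _).trans (mul_le_mul_of_nonneg_left hx (norm_nonneg _))
  · refine (norm_mul_le _ _).trans ?_
    rw [norm_sub_rev p]
    exact mul_le_mul_of_nonneg_right hx (norm_nonneg _)
  · exact (norm_mul_le _ _).trans (mul_le_of_le_one_right (norm_nonneg _) ha1) |>.trans c2

end Classes

/-- The colours of the unit carry a partition of the unit. -/
theorem char_sum_colours (χ₀ : AnnQuot A A₀ →⋆ₐ[ℂ] ℂ) {d : ℕ} {S : Set A}
    {D : ℕ → Colours A₀ d} (hden : A₀ ⊆ closure (Submodule.span ℂ S : Set A))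
    (happx : ∀ a ∈ S,
      (∀ c, Tendsto (fun n => ‖(D n).eta c (D n).e * a - (D n).eta c a‖) atTop (𝓝 0) ∧
        Tendsto (fun n => ‖a * (D n).eta c (D n).e - (D n).eta c a‖) atTop (𝓝 0)) ∧
      Tendsto (fun n => ‖∑ c, (D n).eta c a - a‖) atTop (𝓝 0))
    (hh : ∀ c, hCls D c ∈ centSub A atTop) :
    (χ₀.comp (annMk A A₀)) (∑ c, (⟨hCls D c, hh c⟩ : centSub A atTop)) = 1 := by
  let hK : Fin (d + 1) → centSub A atTop := fun c => ⟨hCls D c, hh c⟩
  show (χ₀.comp (annMk A A₀)) (∑ c, hK c) = 1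
  let K := centSub A atTop
  have hz : annMk A A₀ (∑ c, hK c - 1) = 0 := by
    rw [annMk_eq_zero]
    have hcl : IsClosed {z : A | ((∑ c, hK c - 1 : K) : SeqQuot A atTop) * iota z = 0} :=
      isClosed_eq ((continuous_const_mul _).comp continuous_iota) continuous_const
    refine fun z hz => hcl.closure_subset_iff.2 ?_ (hden hz)
    intro z hz
    rw [SetLike.mem_coe] at hz
    refine Submodule.span_induction (p := fun z _ =>
      ((∑ c, hK c - 1 : K) : SeqQuot A atTop) * iota z = 0) (fun a ha => ?_) ?_ ?_ ?_ hz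
    · push_cast
      show (∑ c, hCls D c - 1) * iota a = 0
      simp only [hCls, iota, ← map_sum, ← map_one (seqMk A atTop), ← map_sub, ← map_mul,
        seqMk_eq_zero]
      have hlim := (tendsto_finset_sum Finset.univ fun c _ =>
        ((happx a ha).1 c).1).add (happx a ha).2
      refine squeeze_zero (fun n => norm_nonneg _) (fun n => ?_) (by simpa using hlim)
      show ‖(NucDim.evalAt n (∑ c, NucDim.bseq (fun n => (D n).eta c (D n).e) 1 _) - 1) * a‖ ≤ _
      rw [map_sum, sub_mul, one_mul, Finset.sum_mul,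
        ← sub_add_sub_cancel _ (∑ c, (D n).eta c a) a, ← Finset.sum_sub_distrib]
      exact (norm_add_le _ _).trans (add_le_add (norm_sum_le _ _) le_rfl)
    · rw [iota_zero, mul_zero]
    · intro x y _ _ hx hy; rw [iota_add, mul_add, hx, hy, add_zero]
    · intro r x _ hx; rw [iota_smul, mul_smul_comm, hx, smul_zero]
  have := congrArg χ₀ hz
  rw [map_zero] at this
  rw [← sub_eq_zero, ← map_one (χ₀.comp (annMk A A₀)), ← map_sub]
  exact this

/-- The blocks leave no character modulo the annihilator. -/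
theorem isEmpty_char (hI : IsClosedIdeal A₀) (hspan : ∀ b : A, ∃ r : ℂ, b - r • 1 ∈ A₀)
    {nW : ℕ} (hnW : 1 ≤ nW) (hP : AmpPI A₀ nW) {d : ℕ} {S : Set A} {D : ℕ → Colours A₀ d}
    (hD : IsApproximation A₀ S D) : IsEmpty (AnnQuot A A₀ →⋆ₐ[ℂ] ℂ) := by
  refine ⟨fun χ₀ => ?_⟩
  set χ : centSub A atTop →⋆ₐ[ℂ] ℂ := χ₀.comp (annMk A A₀) with hχdef
  obtain ⟨hS, hden, happx⟩ := hD
  have hcrit := crit_of_span hI hspan hS hden
  set θ : ℝ := (1 / (d + 1 : ℝ)) ^ 7 with hθ
  have hθ0 : 0 < θ := by positivity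
  obtain ⟨N, hN⟩ := NucDim.block_ideal hI hnW hP (ε := θ / 4) (by positivity)
  obtain ⟨κ, hκ0, hκ, hκ9⟩ : ∃ κ : ℝ, 0 < κ ∧ κ ≤ 1 / 4 ∧ 9 * κ ^ 2 ≤ θ / 4 := by
    have h3 : 0 < min (1 / 4 : ℝ) (θ / 36) := lt_min (by norm_num) (by positivity)
    refine ⟨min (1 / 4) (θ / 36), h3, min_le_left _ _, ?_⟩
    have h1 := min_le_left (1 / 4 : ℝ) (θ / 36)
    have h2 := min_le_right (1 / 4 : ℝ) (θ / 36)
    nlinarith
  obtain ⟨C, hC, hblk⟩ := hN κ hκ0 hκ
  choose a s b G F habs hG hF hsum hGF using fun n l =>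
    hblk n ((D n).size l) ((D n).U l) (Colours.H_corner_mem hI l)
  have hδlim : Tendsto (fun n : ℕ => C / (n + 1)) atTop (𝓝 0) := by
    simpa [div_eq_mul_inv] using tendsto_one_div_add_atTop_nhds_zero_nat.const_mul C
  have hδ0 : ∀ n : ℕ, 0 ≤ C / (n + 1 : ℝ) := fun n => by positivity
  let K := centSub A atTop
  have hh : ∀ c, hCls D c ∈ K := fun c => hCls_mem c hS hcrit fun a ha => (happx a ha).1 c
  let hK : Fin (d + 1) → K := fun c => ⟨hCls D c, hh c⟩
  -- the colours of the unit carry a partition of the unit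
  have hone : χ (∑ c, hK c) = 1 := char_sum_colours χ₀ hden (fun a ha => (happx a ha)) hh
  have hre : ∀ c, 0 ≤ (χ (hK c)).re ∧ χ (hK c) = ((χ (hK c)).re : ℂ) := fun c =>
    NucDim.char_nonneg χ (y := hK c) rfl fun n => ((D n).eta_one_le c).1
  obtain ⟨c, hc⟩ : ∃ c, 1 / (d + 1 : ℝ) ≤ (χ (hK c)).re := by
    by_contra hlt
    push_neg at hlt
    have h1 := congrArg Complex.re hone
    simp only [map_sum, Complex.re_sum, Complex.one_re] at h1
    have h2 := Finset.sum_lt_sum_of_nonempty Finset.univ_nonempty fun c _ => hlt c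
    rw [h1, Finset.sum_const, Finset.card_univ, Fintype.card_fin, nsmul_eq_mul] at h2
    push_cast at h2
    rw [mul_one_div_cancel (by positivity)] at h2
    exact lt_irrefl _ h2
  obtain ⟨ht0, ht⟩ := hre c
  set t := (χ (hK c)).re
  have hmem := fun {δ : ℕ → ℝ} {C : ℝ} (X : Fam D δ C) =>
    X.mul_mem c hS hcrit fun a ha => (happx a ha).1 c
  let fa : Fin 2 × Fin N → Fam D (fun n => C / (n + 1)) N := fun p =>
    ⟨fun n l => a n l p, fun n l => (habs n l p).2.1, Nat.cast_nonneg N, hδ0, hδlim⟩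
  let fs : Fin 2 × Fin N → Fam D (fun n => C / (n + 1)) N := fun p =>
    ⟨fun n l => s n l p, fun n l => (habs n l p).2.2.1, Nat.cast_nonneg N, hδ0, hδlim⟩
  let fb : Fin 2 × Fin N → Fam D (fun n => C / (n + 1)) N := fun p =>
    ⟨fun n l => b n l p, fun n l => (habs n l p).2.2.2, Nat.cast_nonneg N, hδ0, hδlim⟩
  let fG : Fam D (fun n => C / (n + 1)) 2 := ⟨G, hG, zero_le_two, hδ0, hδlim⟩
  let fF : Fam D (fun n => C / (n + 1)) 1 := ⟨F, hF, zero_le_one, hδ0, hδlim⟩
  let fH : Fam D (fun _ => 0) 1 :=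
    ⟨fun n l => ((D n).U l).H, fun n l => ((D n).U l).good_H, zero_le_one, fun _ => le_rfl,
      tendsto_const_nhds⟩
  set h := hCls D c with hhdef
  have hh1 : ‖h‖ ≤ 1 := norm_hCls_le c D
  let kG : K := ⟨h * fG.cls c, hmem fG⟩
  let kF : K := ⟨h * fF.cls c, hmem fF⟩
  let kH : K := ⟨h * fH.cls c, hmem fH⟩
  let ka : Fin 2 × Fin N → K := fun p => ⟨h * (fa p).cls c, hmem (fa p)⟩
  let ks : Fin 2 × Fin N → K := fun p => ⟨h * (fs p).cls c, hmem (fs p)⟩
  let kb : Fin 2 × Fin N → K := fun p => ⟨h * (fb p).cls c, hmem (fb p)⟩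
  -- square zero
  have hks : ∀ p, χ (ks p) = 0 := by
    intro p
    have hz : (fs p).cls c * (fs p).cls c = 0 := by
      rw [Fam.cls, ← map_mul, seqMk_eq_zero]
      refine squeeze_zero (fun n => norm_nonneg _) (fun n => le_of_eq ?_) tendsto_const_nhds
      show ‖(D n).colSum c ((fs p).el n) * (D n).colSum c ((fs p).el n)‖ = 0
      rw [Colours.colSum_mul ((fs p).good n) ((fs p).good n), norm_eq_zero]
      exact Finset.sum_eq_zero fun l _ => (habs n l p).1
    have h2 : ks p * ks p = 0 := by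
      refine Subtype.ext ?_
      show h * (fs p).cls c * (h * (fs p).cls c) = 0
      calc _ = h * ((fs p).cls c * h) * (fs p).cls c := by noncomm_ring
        _ = h * h * ((fs p).cls c * (fs p).cls c) := by
            rw [← ((fs p).commute_hCls c).eq]; noncomm_ring
        _ = 0 := by rw [hz, mul_zero]
    have h3 := congrArg χ h2
    rw [map_mul, map_zero] at h3
    exact mul_self_eq_zero.1 h3
  have hbnd : ∀ k : K, ‖χ k‖ ≤ ‖(k : SeqQuot A atTop)‖ := fun k =>
    NonUnitalStarAlgHom.norm_apply_le χ k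
  -- the approximate identity of the colour
  set E : K := hK c * hK c * kG - ∑ p, ka p * ks p * kb p with hE
  have hEn : ‖(E : SeqQuot A atTop)‖ ≤ θ / 4 := by
    have := norm_cube_le c fa fs fb fG (by positivity : (0 : ℝ) ≤ θ / 4) hsum
    simp only [E, K, hK, kG, ka, ks, kb]
    push_cast
    exact this
  have hg : t * t * ‖χ kG‖ ≤ θ / 4 := by
    have e : χ E = (t : ℂ) * t * χ kG := by
      simp [hE, ht, hks]
    have := (hbnd E).trans hEn
    rwa [e, norm_mul, norm_mul, Complex.norm_real, Real.norm_of_nonneg ht0] at this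
  -- the product with the corrector
  set E' : K := kG * kF - kH * kH with hE'
  have hE'n : ‖(E' : SeqQuot A atTop)‖ ≤ θ / 4 := by
    have := norm_square_le c fG fF fH fun n l => (hGF n l).trans hκ9
    simp only [E', K, kG, kF, kH]
    push_cast
    exact this (by positivity)
  have hf : ‖χ kF‖ ≤ 1 := (hbnd kF).trans ((norm_mul_le _ _).trans
    (mul_le_one₀ hh1 (norm_nonneg _) (norm_cls_le c fF)))
  -- the lower bound
  have hu : t * t ≤ ‖χ kH‖ := lower_bound c χ fH (fun n l => rfl) (hh c) (hmem fH) ht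
  have hmain : θ ≤ t ^ 7 := by rw [hθ]; exact pow_le_pow_left₀ (by positivity) hc 7
  have ht1 : t ≤ 1 := by
    have := (Complex.re_le_norm _).trans ((hbnd (hK c)).trans hh1)
    exact this
  have hfin : t ^ 3 * ‖χ kH‖ ^ 2 ≤ θ / 2 := by
    have e : χ E' = χ kG * χ kF - χ kH * χ kH := by simp [hE']
    have h1 := (hbnd E').trans hE'n
    rw [e] at h1
    have h2 : ‖χ kH‖ ^ 2 ≤ θ / 4 + ‖χ kG‖ := by
      have h3 := norm_le_norm_sub_add (χ kH * χ kH) (χ kG * χ kF)
      rw [norm_sub_rev, norm_mul, norm_mul, ← sq] at h3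
      have := mul_le_of_le_one_right (norm_nonneg (χ kG)) hf
      linarith
    have h4 : t ^ 3 * ‖χ kG‖ ≤ θ / 4 := by
      have : t * (t * t * ‖χ kG‖) ≤ 1 * (θ / 4) := mul_le_mul ht1 hg (by positivity) zero_le_one
      linarith
    have h5 : t ^ 3 ≤ 1 := pow_le_one₀ ht0 ht1
    nlinarith [mul_le_mul_of_nonneg_left h2 (pow_nonneg ht0 3)]
  have h7 : t ^ 3 * (t * t) ^ 2 ≤ t ^ 3 * ‖χ kH‖ ^ 2 :=
    mul_le_mul_of_nonneg_left (pow_le_pow_left₀ (mul_nonneg ht0 ht0) hu 2) (pow_nonneg ht0 3)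
  nlinarith

/-- Halving a family. -/
theorem half_family {C : Type u} [CStarAlgebra C] [PartialOrder C] [StarOrderedRing C] {N : ℕ}
    {δ : ℝ} {x : Fin N → C} (hx : SqZeroFamily δ x) :
    SqZeroFamily (δ / 4) (fun j => (2⁻¹ : ℝ) • x j) ∧ ∀ j, ‖(2⁻¹ : ℝ) • x j‖ ≤ 1 / 2 := by
  have hn : ∀ j, ‖(2⁻¹ : ℝ) • x j‖ ≤ 1 / 2 := fun j => by
    rw [norm_smul, Real.norm_of_nonneg (by norm_num)]
    linarith [hx.norm_le j]
  refine ⟨⟨fun j => by simp [smul_mul_assoc, mul_smul_comm, hx.sq j],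
    fun j => (hn j).trans (by norm_num), ?_⟩, hn⟩
  simp only [star_smul, star_trivial, smul_mul_assoc, mul_smul_comm, smul_smul, ← Finset.smul_sum]
  refine le_of_eq_of_le ?_ (smul_le_smul_of_nonneg_left hx.bound (by norm_num))
  rw [Algebra.algebraMap_eq_smul_one, Algebra.algebraMap_eq_smul_one, smul_smul]
  congr 1
  ring

/-- **The central dimension drop modulo the annihilator.** -/
theorem central : CentralStatement.{u} := by
  intro B _ _ _ _ A₀ hI hspan nW hnW hP d S D hD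
  letI : PartialOrder (AnnQuot B A₀) := CStarAlgebra.spectralOrder _
  haveI : StarOrderedRing (AnnQuot B A₀) := CStarAlgebra.spectralOrderedRing _
  obtain ⟨N, δ, hδ, x, hx⟩ := noCharStatement (AnnQuot B A₀) (isEmpty_char hI hspan hnW hP hD)
  obtain ⟨m, hm⟩ := core_of (orthN_of_orth orthStatement)
    (piece_of_orthN (orthN_of_orth orthStatement)) colours N (δ / 4) (by positivity)
  obtain ⟨X, hX⟩ := exists_slots_ann (half_family hx).1 (half_family hx).2 m
  obtain ⟨y, v, hy, hv, hyv⟩ := hm (AnnQuot B A₀) X hX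
  obtain ⟨y', rfl⟩ := annMk_surjective A₀ y
  obtain ⟨v', rfl⟩ := annMk_surjective A₀ v
  obtain ⟨Y, hY⟩ := seqMk_surjective (y' : SeqQuot B atTop)
  obtain ⟨V, hV⟩ := seqMk_surjective (v' : SeqQuot B atTop)
  have e1 : annMk B A₀ (y' * y') = 0 := by rw [map_mul]; exact hy
  have e2 : annMk B A₀ (star v' * v' - (1 - star y' * y' - y' * star y')) = 0 := by
    rw [map_sub, sub_eq_zero]; simp only [map_sub, map_mul, map_star, map_one]; exact hv
  have e3 : annMk B A₀ (y' * star y' * v' - v') = 0 := by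
    rw [map_sub, sub_eq_zero]; simp only [map_mul, map_star]; exact hyv
  refine ⟨Y, V, isCentralSeq_coe (hY ▸ y'.2), isCentralSeq_coe (hV ▸ v'.2), fun a ha => ⟨?_, ?_, ?_⟩⟩
  · have e := annMk_eq_zero.1 e1 a ha
    push_cast at e
    rw [← hY, iota, ← map_mul, ← map_mul, seqMk_eq_zero] at e
    exact e
  · have e := annMk_eq_zero.1 e2 a ha
    push_cast at e
    simp only [StarMemClass.coe_star] at e
    rw [← hY, ← hV, iota, ← map_one (seqMk B atTop)] at e
    simp only [← map_star, ← map_mul, ← map_sub, seqMk_eq_zero] at e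
    exact e
  · have e := annMk_eq_zero.1 e3 a ha
    push_cast at e
    simp only [StarMemClass.coe_star] at e
    rw [← hY, ← hV, iota] at e
    simp only [← map_star, ← map_mul, ← map_sub, seqMk_eq_zero] at e
    exact e

end Vale.Agent.P133.NucDimGen
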