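import Mathlib

/-!
P133: finite nuclear dimension of a C*-algebra, possibly nonunital.
-/

noncomputable section

namespace Vale.Agent.P133.NucDimGen

universe u

/-- A completely positive map from a C*-algebra into matrices: every block matrix
`φ(a i* a j)` is positive, written entrywise. -/
def IsCPToMat {A : Type u} [NonUnitalCStarAlgebra A] {k : ℕ}
    (ψ : A →ₗ[ℂ] Matrix (Fin k) (Fin k) ℂ) : Prop :=
  ∀ (m : ℕ) (a : Fin m → A) (b : Fin m → Matrix (Fin k) (Fin k) ℂ),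
    ∃ w : Matrix (Fin k) (Fin k) ℂ,
      ∑ i, ∑ j, star (b i) * ψ (star (a i) * a j) * b j = star w * w

/-- A completely positive map from matrices into a C*-algebra, written entrywise. -/
def IsCPFromMat {A : Type u} [NonUnitalCStarAlgebra A] [PartialOrder A] {k : ℕ}
    (φ : Matrix (Fin k) (Fin k) ℂ →ₗ[ℂ] A) : Prop :=
  ∀ (m : ℕ) (a : Fin m → Matrix (Fin k) (Fin k) ℂ) (b : Fin m → A),
    0 ≤ ∑ i, ∑ j, star (b i) * φ (star (a i) * a j) * b j

/-- Finite nuclear dimension: for some `d`, every finite set is approximately fixed by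
`∑ l, φ l ∘ ψ l` through matrix blocks in `d + 1` colours, with `ψ l` and `φ l` completely positive
and contractive, each `φ l` of order zero and blocks of one colour with orthogonal images. -/
def HasFiniteNuclearDimension (A : Type u) [NonUnitalCStarAlgebra A] [PartialOrder A] : Prop :=
  ∃ d : ℕ, ∀ (X : Finset A) (ε : ℝ), 0 < ε →
    ∃ (L : ℕ) (col : Fin L → Fin (d + 1)) (n : Fin L → ℕ)
      (ψ : ∀ l, A →ₗ[ℂ] Matrix (Fin (n l)) (Fin (n l)) ℂ)
      (φ : ∀ l, Matrix (Fin (n l)) (Fin (n l)) ℂ →ₗ[ℂ] A),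
      (∀ l, IsCPToMat (ψ l) ∧
        (∀ a : A, 0 ≤ a → ‖a‖ ≤ 1 →
          ∃ w : Matrix (Fin (n l)) (Fin (n l)) ℂ, 1 - ψ l a = star w * w) ∧
        IsCPFromMat (φ l) ∧ ‖φ l 1‖ ≤ 1) ∧
      (∀ l, ∀ a b : Matrix (Fin (n l)) (Fin (n l)) ℂ,
        star a * a * (star b * b) = 0 → φ l (star a * a) * φ l (star b * b) = 0) ∧
      (∀ l l', col l = col l' → l ≠ l' → φ l 1 * φ l' 1 = 0) ∧
      ∀ a ∈ X, ‖∑ l, φ l (ψ l a) - a‖ ≤ ε

end Vale.Agent.P133.NucDimGen
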