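import Vale.Agent.P133.NucDimGen.Specs
import Vale.Agent.P133.NucDim.Absorb
import Vale.Agent.P133.NucDim.OrderZero

/-!
P133, finite nuclear dimension without unit: passing to a separable subalgebra.

A countable set containing the given elements is closed under sums, products, adjoints, a dense
set of scalars and the witnesses of both hypotheses; its closure is the subalgebra.
-/

noncomputable section

namespace Vale.Agent.P133.NucDimGen

open Filter Topology Vale.Agent.P133.FinDim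
open scoped ComplexOrder

universe u

variable {A : Type u} [NonUnitalCStarAlgebra A] [PartialOrder A] [StarOrderedRing A]

/-- An element whose conjugates are positive is positive. -/
theorem nonneg_of_conj_nonneg {P : A} (h : ∀ b : A, 0 ≤ star b * P * b) : 0 ≤ P := by
  have hl := CStarAlgebra.increasingApproximateUnit A
  have := hl.toIsApproximateUnit.neBot
  suffices hP : P ∈ {z : A | 0 ≤ z} from hP
  refine CStarAlgebra.isClosed_nonneg.mem_of_tendsto
    (f := fun e => e * P * e) (b := CStarAlgebra.approximateUnit A) ?_ ?_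
  · rw [tendsto_iff_norm_sub_tendsto_zero]
    have hsum := (tendsto_iff_norm_sub_tendsto_zero.1
      (hl.toIsApproximateUnit.tendsto_mul_right P)).add
        (tendsto_iff_norm_sub_tendsto_zero.1 (hl.toIsApproximateUnit.tendsto_mul_left P))
    rw [add_zero] at hsum
    refine squeeze_zero' (Eventually.of_forall fun e => norm_nonneg _) ?_ hsum
    filter_upwards [hl.eventually_norm] with e he
    rw [show e * P * e - P = e * (P * e - P) + (e * P - P) by rw [mul_sub, mul_assoc]; abel]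
    exact ((norm_add_le _ _).trans (add_le_add ((norm_mul_le _ _).trans
      (mul_le_of_le_one_left (norm_nonneg _) he)) le_rfl)).trans_eq (add_comm _ _)
  · filter_upwards [hl.eventually_star_eq] with e he
    show 0 ≤ e * P * e
    simpa [he] using h e

/-- A completely positive map out of matrices maps squares to positive elements. -/
theorem cp_square_nonneg {k : ℕ} {φ : Matrix (Fin k) (Fin k) ℂ →ₗ[ℂ] A} (hφ : IsCPFromMat φ)
    (w : Matrix (Fin k) (Fin k) ℂ) : 0 ≤ φ (star w * w) :=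
  nonneg_of_conj_nonneg fun b => by simpa using hφ 1 (fun _ => w) (fun _ => b)

/-- The compositions of a decomposition in `d + 1` colours are uniformly bounded. -/
theorem norm_decomp_le {d L : ℕ} (col : Fin L → Fin (d + 1)) (n : Fin L → ℕ)
    (ψ : ∀ l, A →ₗ[ℂ] Matrix (Fin (n l)) (Fin (n l)) ℂ)
    (φ : ∀ l, Matrix (Fin (n l)) (Fin (n l)) ℂ →ₗ[ℂ] A)
    (h1 : ∀ l, IsCPToMat (ψ l) ∧
      (∀ a : A, 0 ≤ a → ‖a‖ ≤ 1 →
        ∃ w : Matrix (Fin (n l)) (Fin (n l)) ℂ, 1 - ψ l a = star w * w) ∧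
      IsCPFromMat (φ l) ∧ ‖φ l 1‖ ≤ 1)
    (h3 : ∀ l l', col l = col l' → l ≠ l' → φ l 1 * φ l' 1 = 0) (z : A) :
    ‖∑ l, φ l (ψ l z)‖ ≤ 4 * ((d : ℝ) + 1) * ‖z‖ := by
  classical
  let S : A →ₗ[ℂ] A := ∑ l, (φ l).comp (ψ l)
  have hS : ∀ z, S z = ∑ l, φ l (ψ l z) := fun z => by simp [S, LinearMap.sum_apply]
  have hone : ∀ l, 0 ≤ φ l 1 := fun l => by
    simpa using cp_square_nonneg (h1 l).2.2.1 (1 : Matrix (Fin (n l)) (Fin (n l)) ℂ)
  have hball : ∀ z : A, 0 ≤ z → ‖z‖ ≤ 1 → ‖S z‖ ≤ (d : ℝ) + 1 := by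
    intro z hz hz1
    have hb : ∀ l, 0 ≤ φ l (ψ l z) ∧ φ l (ψ l z) ≤ φ l 1 := fun l => by
      obtain ⟨v, rfl⟩ := CStarAlgebra.nonneg_iff_eq_star_mul_self.1 hz
      obtain ⟨w, hw⟩ := (h1 l).1 1 (fun _ => v) (fun _ => 1)
      simp only [Finset.univ_unique, Finset.sum_singleton, star_one, one_mul, mul_one] at hw
      obtain ⟨w', hw'⟩ := (h1 l).2.1 _ hz hz1
      refine ⟨hw ▸ cp_square_nonneg (h1 l).2.2.1 w, ?_⟩
      rw [← sub_nonneg, ← map_sub, hw']
      exact cp_square_nonneg (h1 l).2.2.1 w'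
    rw [hS, ← Finset.sum_fiberwise Finset.univ col fun l => φ l (ψ l z)]
    refine (norm_sum_le _ _).trans ((Finset.sum_le_sum (g := fun _ => (1 : ℝ)) fun c _ => ?_).trans
      (le_of_eq (by simp)))
    refine (CStarAlgebra.norm_le_norm_of_nonneg_of_le (Finset.sum_nonneg fun l _ => (hb l).1)
      (Finset.sum_le_sum fun l _ => (hb l).2)).trans ?_
    rw [← Unitization.norm_inr (𝕜 := ℂ), inr_finsetSum]
    refine NucDim.norm_sum_orth_le _ _ (fun i hi j hj hij => ?_) (fun i hi j hj hij => ?_)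
      zero_le_one fun i _ => by rw [Unitization.norm_inr]; exact (h1 i).2.2.2
    all_goals
      rw [← Unitization.inr_star, (IsSelfAdjoint.of_nonneg (hone _)).star_eq, ← Unitization.inr_mul,
        h3 i j ((Finset.mem_filter.1 hi).2.trans (Finset.mem_filter.1 hj).2.symm) hij,
        Unitization.inr_zero]
  have hpos : ∀ z : A, 0 ≤ z → ‖S z‖ ≤ ((d : ℝ) + 1) * ‖z‖ := by
    intro z hz
    rcases eq_or_ne z 0 with rfl | hz0
    · simp
    have hn : 0 < ‖z‖ := norm_pos_iff.2 hz0
    have e : S z = (‖z‖ : ℂ) • S (‖z‖⁻¹ • z) := by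
      rw [← map_smul, Complex.coe_smul, smul_smul, mul_inv_cancel₀ hn.ne', one_smul]
    rw [e, norm_smul, Complex.norm_real, norm_norm, mul_comm]
    refine mul_le_mul_of_nonneg_right (hball _ (smul_nonneg (by positivity) hz) ?_) hn.le
    rw [norm_smul, norm_inv, norm_norm, inv_mul_cancel₀ hn.ne']
  obtain ⟨x, hx0, hxn, hxs⟩ := CStarAlgebra.exists_sum_four_nonneg z
  rw [← hS]
  conv_lhs => rw [hxs, map_sum]
  refine (norm_sum_le _ _).trans ((Finset.sum_le_sum (g := fun _ => ((d : ℝ) + 1) * ‖z‖)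
    fun i _ => ?_).trans (le_of_eq (by simp; ring)))
  rw [map_smul, norm_smul, norm_pow, Complex.norm_I, one_pow, one_mul]
  exact (hpos _ (hx0 i)).trans (mul_le_mul_of_nonneg_left (hxn i) (by positivity))

/-- Bounded rows carrying approximate copies of a positive element. -/
theorem exists_rows {N : ℕ} (hP : AmpPI (base A) N) {h : A} (hh : 0 ≤ h) {c : ℝ} (hc : 0 < c) :
    ∃ q : Fin N → (Fin N × Fin 2) → A, (∀ p i, c * ‖q p i‖ ^ 2 ≤ ‖h‖ + 1) ∧
      ∀ i j, ‖(∑ p, star (q p i) * h * q p j) - (if i = j then h else 0)‖ ≤ 2 * c := by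
  set G : Unitization ℂ A := (h : Unitization ℂ A) with hGdef
  have hG : 0 ≤ G := Unitization.inr_nonneg_iff.2 hh
  have hGn : ‖G‖ = ‖h‖ := Unitization.norm_inr _
  have hcutA : cut c G ∈ base A := cut_mem (isClosedIdeal_base A) hc.le hG ⟨h, rfl⟩
  obtain ⟨r, hrA, hr⟩ := hP (cut c G) hcutA cut_nonneg (min c 1) (lt_min hc one_pos)
  obtain ⟨k, hks, hkG, hkc⟩ := exists_cut_factor hc hG
  have hqA : ∀ p i, ∃ q : A, (q : Unitization ℂ A) = k * r p i := fun p i =>
    (isClosedIdeal_base A).mul_left k _ (hrA p i)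
  choose q hq using hqA
  have e : ∀ p i j, star (k * r p i) * G * (k * r p j) = star (r p i) * cut c G * r p j := by
    intro p i j
    rw [star_mul, hks.star_eq, ← hkG]; noncomm_ring
  have hd : ‖cut c G - G‖ ≤ c := by rw [norm_sub_rev]; exact NucDim.norm_sub_cut_self_le hc.le hG
  refine ⟨q, fun p i => ?_, fun i j => ?_⟩
  · rw [← Unitization.norm_inr (𝕜 := ℂ) (q p i), hq]
    have h1 : c • (star (k * r p i) * (k * r p i)) ≤ ∑ p', star (r p' i) * cut c G * r p' i := by
      refine le_trans ?_ (Finset.single_le_sum (f := fun p' => star (r p' i) * cut c G * r p' i)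
        (fun p' _ => star_left_conjugate_nonneg cut_nonneg _) (Finset.mem_univ p))
      refine le_of_eq_of_le ?_ (star_left_conjugate_le_conjugate hkc (r p i))
      rw [star_mul, hks.star_eq, mul_smul_comm, smul_mul_assoc]
      congr 1
      noncomm_ring
    have h2 := CStarAlgebra.norm_le_norm_of_nonneg_of_le
      (smul_nonneg hc.le (star_mul_self_nonneg _)) h1
    rw [norm_smul, CStarRing.norm_star_mul_self, Real.norm_eq_abs, abs_of_pos hc, ← sq] at h2
    refine h2.trans ?_
    have h3 := hr i i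
    rw [if_pos rfl] at h3
    have h4 := norm_le_norm_sub_add (∑ p', star (r p' i) * cut c G * r p' i) (cut c G)
    have h5 : ‖cut c G‖ ≤ ‖h‖ := by
      refine norm_cfc_le (norm_nonneg h) fun t ht => ?_
      rw [Real.norm_eq_abs, abs_of_nonneg (le_max_right _ _)]
      have ht1 := spectrum.norm_le_norm_of_mem ht
      rw [hGn, Real.norm_eq_abs] at ht1
      exact max_le (by linarith [le_abs_self t]) (norm_nonneg _)
    linarith [min_le_right c 1]
  · rw [← Unitization.norm_inr (𝕜 := ℂ), Unitization.inr_sub, inr_finsetSum]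
    simp only [Unitization.inr_mul, Unitization.inr_star, hq, ← hGdef, e]
    have h3 := hr i j
    split_ifs with hij
    · rw [if_pos hij] at h3
      refine (norm_sub_le_norm_sub_add_norm_sub _ (cut c G) _).trans ?_
      linarith [min_le_left c 1]
    · rw [if_neg hij] at h3
      rw [Unitization.inr_zero]
      linarith [min_le_left c 1]

/-- One step of the closure: operations and witnesses. -/
def stepSet (Q : Set ℂ) (W₁ : Finset A → ℕ → Set A) (W₂ : A → ℕ → Set A) (E : Set A) : Set A :=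
  E ∪ star '' E ∪ Set.image2 (· + ·) E E ∪ Set.image2 (· * ·) E E ∪ Set.image2 (· • ·) Q E ∪
    (⋃ t : Finset E, ⋃ m, W₁ (t.map ⟨Subtype.val, Subtype.val_injective⟩) m) ∪
    (⋃ a ∈ E, ⋃ m, W₂ a m)

omit [PartialOrder A] [StarOrderedRing A] in
theorem stepSet_countable {Q : Set ℂ} (hQ : Q.Countable) {W₁ : Finset A → ℕ → Set A}
    (h1 : ∀ t m, (W₁ t m).Countable) {W₂ : A → ℕ → Set A} (h2 : ∀ a m, (W₂ a m).Countable)
    {E : Set A} (hE : E.Countable) : (stepSet Q W₁ W₂ E).Countable := by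
  have := hE.to_subtype
  exact ((((((hE.union (hE.image _)).union (hE.image2 hE _)).union (hE.image2 hE _)).union
    (hQ.image2 hE _)).union (Set.countable_iUnion fun t => Set.countable_iUnion fun m => h1 _ m))
    ).union (hE.biUnion fun a _ => Set.countable_iUnion fun m => h2 a m)

/-- **Reduction** to separable algebras. -/
theorem reduction : ReductionStatement.{u} := by
  intro A _ _ _ hnd hwpi x y hx hy
  classical
  obtain ⟨d, hd⟩ := hnd
  obtain ⟨N, hN, hP⟩ := exists_ampPI_base hwpi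
  choose L col sz ψ φ h1 h2 h3 h4 using fun (X : Finset A) (m : ℕ) =>
    hd X (1 / ((m : ℝ) + 1)) (by positivity)
  choose q hqn hq using fun (a : A) (m : ℕ) =>
    exists_rows hP (star_mul_self_nonneg a) (show (0 : ℝ) < 1 / ((m : ℝ) + 1) by positivity)
  obtain ⟨Q, hQc, hQd⟩ := TopologicalSpace.exists_countable_dense ℂ
  let W₁ : Finset A → ℕ → Set A := fun X m =>
    ⋃ l, Set.range fun ij : Fin (sz X m l) × Fin (sz X m l) =>
      φ X m l (Matrix.single ij.1 ij.2 1)
  let W₂ : A → ℕ → Set A := fun a m =>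
    Set.range fun pi : Fin N × (Fin N × Fin 2) => q a m pi.1 pi.2
  let E : ℕ → Set A := fun k => (stepSet Q W₁ W₂)^[k] {0, x, y}
  have hEs : ∀ k, E (k + 1) = stepSet Q W₁ W₂ (E k) := fun k =>
    Function.iterate_succ_apply' _ _ _
  have hEc : ∀ k, (E k).Countable := by
    intro k
    induction k with
    | zero => exact ((Set.countable_singleton y).insert x).insert 0
    | succ k ih =>
      rw [hEs]
      exact stepSet_countable hQc (fun t m => Set.countable_iUnion fun l => Set.countable_range _)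
        (fun a m => Set.countable_range _) ih
  have hmono : Monotone E := monotone_nat_of_le_succ fun k z hz => by
    rw [hEs]; simp [stepSet, hz]
  set T : Set A := ⋃ k, E k with hT
  have hTc : T.Countable := Set.countable_iUnion hEc
  have hT2 : ∀ a ∈ T, ∀ b ∈ T, ∃ k, a ∈ E k ∧ b ∈ E k := by
    intro a ha b hb
    obtain ⟨i, hi⟩ := Set.mem_iUnion.1 ha
    obtain ⟨j, hj⟩ := Set.mem_iUnion.1 hb
    exact ⟨max i j, hmono (le_max_left _ _) hi, hmono (le_max_right _ _) hj⟩
  have hup : ∀ k z, z ∈ stepSet Q W₁ W₂ (E k) → z ∈ T := fun k z hz =>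
    Set.mem_iUnion.2 ⟨k + 1, by rw [hEs]; exact hz⟩
  have hinit : ∀ z ∈ ({0, x, y} : Set A), z ∈ T := fun z hz => Set.mem_iUnion.2 ⟨0, hz⟩
  have hadd : ∀ a ∈ T, ∀ b ∈ T, a + b ∈ T := fun a ha b hb => by
    obtain ⟨k, hak, hbk⟩ := hT2 a ha b hb
    refine hup k _ (Or.inl (Or.inl (Or.inl (Or.inl (Or.inr ?_)))))
    exact Set.mem_image2_of_mem hak hbk
  have hmul : ∀ a ∈ T, ∀ b ∈ T, a * b ∈ T := fun a ha b hb => by
    obtain ⟨k, hak, hbk⟩ := hT2 a ha b hb
    refine hup k _ (Or.inl (Or.inl (Or.inl (Or.inr ?_))))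
    exact Set.mem_image2_of_mem hak hbk
  have hsmul : ∀ r ∈ Q, ∀ a ∈ T, r • a ∈ T := fun r hr a ha => by
    obtain ⟨k, hak⟩ := Set.mem_iUnion.1 ha
    exact hup k _ (Or.inl (Or.inl (Or.inr (Set.mem_image2_of_mem hr hak))))
  have hstar : ∀ a ∈ T, star a ∈ T := fun a ha => by
    obtain ⟨k, hak⟩ := Set.mem_iUnion.1 ha
    exact hup k _ (Or.inl (Or.inl (Or.inl (Or.inl (Or.inl (Or.inr ⟨a, hak, rfl⟩))))))
  have hW1 : ∀ X : Finset A, ↑X ⊆ T → ∀ m, W₁ X m ⊆ T := by
    intro X hX m z hz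
    obtain ⟨k, hk⟩ : ∃ k, ↑X ⊆ E k := hmono.directed_le.exists_mem_subset_of_finset_subset_biUnion hX
    refine hup k _ (Or.inl (Or.inr (Set.mem_iUnion.2 ⟨X.subtype (· ∈ E k), Set.mem_iUnion.2 ⟨m, ?_⟩⟩)))
    convert hz using 2
    exact Finset.subtype_map_of_mem fun a ha => hk ha
  have hW2 : ∀ a ∈ T, ∀ m, W₂ a m ⊆ T := by
    intro a ha m z hz
    obtain ⟨k, hk⟩ := Set.mem_iUnion.1 ha
    exact hup k _ (Or.inr (Set.mem_iUnion₂.2 ⟨a, hk, Set.mem_iUnion.2 ⟨m, hz⟩⟩))
  let S : NonUnitalStarSubalgebra ℂ A :=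
    { carrier := closure T
      add_mem' := fun ha hb => map_mem_closure₂ continuous_add ha hb hadd
      zero_mem' := subset_closure (hinit 0 (by simp))
      mul_mem' := fun ha hb => map_mem_closure₂ continuous_mul ha hb hmul
      smul_mem' := fun r a ha => map_mem_closure₂ continuous_smul (hQd r) ha hsmul
      star_mem' := fun ha => map_mem_closure continuous_star ha hstar }
  have hTS : T ⊆ (S : Set A) := subset_closure
  have hSc : IsClosed (S : Set A) := isClosed_closure
  let : NonUnitalCStarAlgebra S := NonUnitalStarSubalgebra.nonUnitalCStarAlgebra S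
  have : StarOrderedRing S := by
    refine StarOrderedRing.of_nonneg_iff' (fun {a b} h c => ?_) fun a => ⟨fun h => ?_, ?_⟩
    · show (c : A) + a ≤ c + b
      exact add_le_add_right (show (a : A) ≤ b from h) _
    · have h0 : (0 : A) ≤ a := h
      have hm : cfcₙ Real.sqrt (a : A) ∈ S := cfcₙ_mem (𝕜' := ℂ) Real.sqrt a.2
      refine ⟨⟨_, hm⟩, Subtype.ext ?_⟩
      show (a : A) = star (cfcₙ Real.sqrt (a : A)) * cfcₙ Real.sqrt (a : A)
      rw [← CFC.sqrt_eq_real_sqrt (a : A) h0,
        (IsSelfAdjoint.of_nonneg (CFC.sqrt_nonneg _)).star_eq, CFC.sqrt_mul_sqrt_self _ h0]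
    · rintro ⟨t, rfl⟩
      exact star_mul_self_nonneg (t : A)
  have : TopologicalSpace.SeparableSpace S :=
    (show TopologicalSpace.IsSeparable (S : Set A) from hTc.isSeparable.closure).separableSpace
  let f : S →⋆ₙₐ[ℂ] A := NonUnitalStarSubalgebraClass.subtype S
  have hup' : ∀ a : S, 0 ≤ a → 0 ≤ (a : A) := fun a ha => ha
  have hdown : ∀ a : S, 0 ≤ (a : A) → 0 ≤ a := fun a ha => ha
  have hsum : ∀ {ι : Type} (s : Finset ι) (g : ι → S),
      ((∑ i ∈ s, g i : S) : A) = ∑ i ∈ s, (g i : A) := fun s g => map_sum f g s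
  refine ⟨S, inferInstance, inferInstance, inferInstance, inferInstance, f,
    ⟨x, hTS (hinit x (by simp))⟩, ⟨y, hTS (hinit y (by simp))⟩, fun a b hab => Subtype.ext hab,
    hdown _ hx, rfl, hdown _ hy, rfl, ⟨d, fun X ε hε => ?_⟩, ⟨N, hN, fun h hh ε hε => ?_⟩⟩
  · -- finite nuclear dimension
    set δ := ε / (3 * (4 * ((d : ℝ) + 1) + 1)) with hδ
    have hδ0 : 0 < δ := by positivity
    choose t ht htd using fun a : S => Metric.mem_closure_iff.1 a.2 δ hδ0
    obtain ⟨m, hm⟩ := exists_nat_one_div_lt (show (0 : ℝ) < ε / 3 by positivity)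
    set Y := X.image t with hY
    have hYT : ↑Y ⊆ T := by
      intro z hz
      rw [hY, Finset.coe_image] at hz
      obtain ⟨a, -, rfl⟩ := hz
      exact ht a
    have hrange : ∀ l M, φ Y m l M ∈ S := by
      intro l M
      rw [Matrix.matrix_eq_sum_single M]
      simp only [map_sum]
      refine sum_mem fun i _ => sum_mem fun j _ => ?_
      rw [show Matrix.single i j (M i j) = M i j • Matrix.single i j (1 : ℂ) by simp, map_smul]
      exact SMulMemClass.smul_mem _
        (hTS (hW1 Y hYT m (Set.mem_iUnion.2 ⟨l, ⟨(i, j), rfl⟩⟩)))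
    let ψ' : ∀ l, S →ₗ[ℂ] Matrix (Fin (sz Y m l)) (Fin (sz Y m l)) ℂ := fun l =>
      { toFun := fun a => ψ Y m l (a : A)
        map_add' := fun a b => map_add (ψ Y m l) (a : A) (b : A)
        map_smul' := fun r a => map_smul (ψ Y m l) r (a : A) }
    let φ' : ∀ l, Matrix (Fin (sz Y m l)) (Fin (sz Y m l)) ℂ →ₗ[ℂ] S := fun l =>
      { toFun := fun M => ⟨φ Y m l M, hrange l M⟩
        map_add' := fun M M' => Subtype.ext (map_add (φ Y m l) M M')
        map_smul' := fun r M => Subtype.ext (map_smul (φ Y m l) r M) }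
    refine ⟨L Y m, col Y m, sz Y m, ψ', φ', fun l => ⟨fun k a b => (h1 Y m l).1 k (fun i => a i) b,
      fun a ha ha1 => (h1 Y m l).2.1 a (hup' a ha) ha1, fun k a b => hdown _ ?_, (h1 Y m l).2.2.2⟩,
      fun l a b hab => Subtype.ext (h2 Y m l a b hab),
      fun l l' hc hne => Subtype.ext (h3 Y m l l' hc hne), fun a ha => ?_⟩
    · simp only [hsum]
      exact (h1 Y m l).2.2.1 k a fun i => b i
    · show ‖((∑ l, φ' l (ψ' l a) - a : S) : A)‖ ≤ ε
      rw [AddSubgroupClass.coe_sub, hsum]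
      show ‖∑ l, φ Y m l (ψ Y m l (a : A)) - a‖ ≤ ε
      have hclose : ‖(a : A) - t a‖ ≤ δ := by rw [← dist_eq_norm]; exact (htd a).le
      have hfix := h4 Y m (t a) (Finset.mem_image_of_mem t ha)
      have hbd := norm_decomp_le (col Y m) (sz Y m) (ψ Y m) (φ Y m) (h1 Y m) (h3 Y m)
        ((a : A) - t a)
      have e : ∑ l, φ Y m l (ψ Y m l (a : A)) - a = ∑ l, φ Y m l (ψ Y m l ((a : A) - t a)) +
          (∑ l, φ Y m l (ψ Y m l (t a)) - t a) + (t a - a) := by
        simp only [map_sub, Finset.sum_sub_distrib]; abel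
      rw [e]
      refine (norm_add₃_le).trans ?_
      rw [norm_sub_rev (t a)]
      calc ‖∑ l, φ Y m l (ψ Y m l ((a : A) - t a))‖ + ‖∑ l, φ Y m l (ψ Y m l (t a)) - t a‖ +
            ‖(a : A) - t a‖
          ≤ 4 * ((d : ℝ) + 1) * δ + ε / 3 + δ := by
            gcongr
            · exact hbd.trans (by gcongr)
            · exact hfix.trans hm.le
        _ = (4 * ((d : ℝ) + 1) + 1) * δ + ε / 3 := by ring
        _ ≤ ε := by
            have : (4 * ((d : ℝ) + 1) + 1) * δ = ε / 3 := by rw [hδ]; field_simp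
            linarith
  · -- weak pure infiniteness
    have hh' : 0 ≤ (h : A) := hup' h hh
    obtain ⟨m, hm⟩ := exists_nat_one_div_lt (show (0 : ℝ) < ε / 8 by positivity)
    set c := 1 / ((m : ℝ) + 1) with hc
    have hc0 : 0 < c := by positivity
    set K := (‖(h : A)‖ + 2) / c with hK
    have hK0 : 0 < K := by positivity
    set δ := min 1 (ε / (4 * ((N : ℝ) * K + 1))) with hδ
    have hδ0 : 0 < δ := lt_min one_pos (by positivity)
    have hsq : CFC.sqrt (h : A) ∈ closure T := by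
      rw [CFC.sqrt_eq_real_sqrt (h : A) hh']
      exact cfcₙ_mem (𝕜' := ℂ) (s := S) Real.sqrt h.2
    have hmem : (h : A) ∈ closure ((fun b : A => star b * b) '' T) := by
      have := map_mem_closure (f := fun b : A => star b * b) (continuous_star.mul continuous_id)
        hsq (Set.mapsTo_image _ T)
      simpa [(IsSelfAdjoint.of_nonneg (CFC.sqrt_nonneg (h : A))).star_eq,
        CFC.sqrt_mul_sqrt_self _ hh'] using this
    obtain ⟨_, ⟨a, haT, rfl⟩, hdist⟩ := Metric.mem_closure_iff.1 hmem δ hδ0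
    rw [dist_eq_norm] at hdist
    set h₀ := star a * a
    have hqS : ∀ p i, q a m p i ∈ S := fun p i => hTS (hW2 a haT m ⟨(p, i), rfl⟩)
    have hh₀ : ‖h₀‖ ≤ ‖(h : A)‖ + 1 := by
      have := norm_le_norm_add_norm_sub' h₀ (h : A)
      rw [norm_sub_rev] at this
      linarith [min_le_left 1 (ε / (4 * ((N : ℝ) * K + 1)))]
    have hqK : ∀ p i, ‖q a m p i‖ ^ 2 ≤ K := fun p i => by
      rw [hK, le_div_iff₀ hc0]
      linarith [hqn a m p i]
    refine ⟨fun p i => ⟨q a m p i, hqS p i⟩, fun i j => ?_⟩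
    show ‖(((∑ p, star (⟨q a m p i, hqS p i⟩ : S) * h * ⟨q a m p j, hqS p j⟩) -
      (if i = j then h else 0) : S) : A)‖ < ε
    rw [AddSubgroupClass.coe_sub, hsum, apply_ite (fun z : S => (z : A))]
    show ‖(∑ p, star (q a m p i) * (h : A) * q a m p j) - (if i = j then (h : A) else 0)‖ < ε
    have e : (∑ p, star (q a m p i) * (h : A) * q a m p j) - (if i = j then (h : A) else 0) =
        (∑ p, star (q a m p i) * ((h : A) - h₀) * q a m p j) +
          ((∑ p, star (q a m p i) * h₀ * q a m p j) - (if i = j then h₀ else 0)) +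
          (if i = j then h₀ - (h : A) else 0) := by
      simp only [mul_sub, sub_mul, Finset.sum_sub_distrib]
      split_ifs <;> abel
    rw [e]
    refine (norm_add₃_le).trans_lt ?_
    have t1 : ‖∑ p, star (q a m p i) * ((h : A) - h₀) * q a m p j‖ ≤ N * K * δ := by
      refine (norm_sum_le _ _).trans ((Finset.sum_le_sum (g := fun _ => K * δ) fun p _ => ?_).trans
        (le_of_eq (by simp; ring)))
      refine norm_mul₃_le.trans ?_
      rw [norm_star]
      nlinarith [hqK p i, hqK p j, norm_nonneg (q a m p i), norm_nonneg (q a m p j),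
        norm_nonneg ((h : A) - h₀), sq_nonneg (‖q a m p i‖ - ‖q a m p j‖)]
    have t3 : ‖if i = j then h₀ - (h : A) else 0‖ ≤ δ := by
      split_ifs
      · rw [norm_sub_rev]; exact hdist.le
      · simpa using hδ0.le
    have t2 := hq a m i j
    have hδ1 : δ * (4 * ((N : ℝ) * K + 1)) ≤ ε :=
      (le_div_iff₀ (by positivity)).1 (min_le_right _ _)
    linarith

end Vale.Agent.P133.NucDimGen
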