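import Vale.Agent.P133.NucDimGen.Absorb
import Vale.Agent.P133.NucDimGen.Approx
import Vale.Agent.P133.NucDimGen.Central
import Vale.Agent.P133.NucDimGen.Reduction
import Vale.Agent.P133.FinDim.Transfer

/-!
P133: the three notions coincide for all C*-algebras of finite nuclear dimension.
-/

noncomputable section

namespace Vale.Agent.P133.NucDimGen

open Vale.Agent.P133.FinDim

universe u

theorem unitization_span (A : Type u) [NonUnitalCStarAlgebra A] (b : Unitization ℂ A) :
    ∃ r : ℂ, b - r • 1 ∈ base A :=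
  ⟨b.fst, b.snd, by ext <;> simp [sub_eq_add_neg]⟩

theorem separable_unitization (A : Type u) [NonUnitalCStarAlgebra A]
    [TopologicalSpace.SeparableSpace A] : TopologicalSpace.SeparableSpace (Unitization ℂ A) := by
  have h : DenseRange fun p : ℂ × A => (algebraMap ℂ (Unitization ℂ A) p.1 + (p.2 : Unitization ℂ A)) :=
    Function.Surjective.denseRange fun b => ⟨(b.fst, b.snd), Unitization.inl_fst_add_inr_snd_eq b⟩
  refine h.separableSpace ?_
  exact ((continuous_algebraMap ℂ (Unitization ℂ A)).comp continuous_fst).add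
    ((Unitization.isometry_inr (𝕜 := ℂ) (A := A)).continuous.comp continuous_snd)

theorem isStronglyPurelyInfinite_of_nuclear (A : Type u) [NonUnitalCStarAlgebra A] [PartialOrder A]
    [StarOrderedRing A] (hA : HasFiniteNuclearDimension A) (hW : IsWeaklyPurelyInfinite A) :
    IsStronglyPurelyInfinite A := by
  intro x y hx hy ε hε
  obtain ⟨A', _, _, _, _, f, x', y', hf, hx', rfl, hy', rfl, hfd, hW'⟩ :=
    reduction A hA hW x y hx hy
  have := separable_unitization A'
  obtain ⟨d, S, D, hD⟩ := approx A' hfd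
  obtain ⟨n, hn, hP⟩ := exists_ampPI_base hW'
  have hI := isClosedIdeal_base A'
  have hdrop := central (Unitization ℂ A') (base A') hI (unitization_span A') n hn hP d S D hD
  obtain ⟨_, _, ⟨s, rfl⟩, ⟨t, rfl⟩, hs, ht, hst⟩ := absorb (Unitization ℂ A') (base A') hI n hn hP
    hdrop (x' : Unitization ℂ A') (y' : Unitization ℂ A') ⟨x', rfl⟩ ⟨y', rfl⟩
    (Unitization.inr_nonneg_iff.2 hx') (Unitization.inr_nonneg_iff.2 hy') ε hε
  have hiso : ∀ z : A', ‖f z‖ = ‖z‖ := fun z => NonUnitalStarAlgHom.norm_map f hf z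
  refine ⟨f s, f t, ?_, ?_, ?_⟩
  · simp only [← map_star, ← map_mul, ← map_sub, hiso]
    rw [← Unitization.norm_inr (𝕜 := ℂ)]
    simpa [Unitization.inr_sub, Unitization.inr_mul, Unitization.inr_star] using hs
  · simp only [← map_star, ← map_mul, ← map_sub, hiso]
    rw [← Unitization.norm_inr (𝕜 := ℂ)]
    simpa [Unitization.inr_sub, Unitization.inr_mul, Unitization.inr_star] using ht
  · simp only [← map_star, ← map_mul, hiso]
    rw [← Unitization.norm_inr (𝕜 := ℂ)]
    simpa [Unitization.inr_mul, Unitization.inr_star] using hst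

theorem notions_coincide_nuclear (A : Type u) [NonUnitalCStarAlgebra A] [PartialOrder A]
    [StarOrderedRing A] (hA : HasFiniteNuclearDimension A) :
    (IsWeaklyPurelyInfinite A ↔ IsPurelyInfinite A) ∧
      (IsPurelyInfinite A ↔ IsStronglyPurelyInfinite A) := by
  have h := isStronglyPurelyInfinite_of_nuclear A hA
  exact ⟨⟨fun hW => isPurelyInfinite_of_isStronglyPurelyInfinite (h hW),
      isWeaklyPurelyInfinite_of_isPurelyInfinite⟩,
    ⟨fun hP => h (isWeaklyPurelyInfinite_of_isPurelyInfinite hP),
      isPurelyInfinite_of_isStronglyPurelyInfinite⟩⟩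

end Vale.Agent.P133.NucDimGen
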