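import Vale.Agent.P133.NucDimGen.Specs
import Vale.Agent.P101.Final

/-!
P133, finite nuclear dimension without unit: the central sequence algebra modulo the annihilator
of the ideal, and slots in it.
-/

noncomputable section

namespace Vale.Agent.P133.NucDimGen

open Filter Topology Vale.Agent.P101 Vale.Agent.P133.FinDim
open scoped BoundedContinuousFunction

universe u

variable {B : Type u} [CStarAlgebra B]

/-- The lower bound of a family, as an element `star c * c`. -/
theorem exists_gap {C : Type u} [CStarAlgebra C] [PartialOrder C] [StarOrderedRing C] {N : ℕ}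
    {δ : ℝ} {x : Fin N → C} (hx : SqZeroFamily δ x) :
    ∃ c, ∑ j, star (x j) * x j - algebraMap ℝ C δ = star c * c :=
  CStarAlgebra.nonneg_iff_eq_star_mul_self.1 (sub_nonneg.2 hx.bound)

/-- A gap of the form `star c * c` gives the lower bound. -/
theorem le_of_gap {C : Type u} [CStarAlgebra C] [PartialOrder C] [StarOrderedRing C] {r s c : C}
    (h : s - r = star c * c) : r ≤ s := by
  rw [← sub_nonneg, h]
  exact star_mul_self_nonneg c

/-- The constant sequences, in the sequence algebra. -/
def iota (a : B) : SeqQuot B atTop := seqMk B atTop (BoundedContinuousFunction.const ℕ a)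

theorem iota_mul (a b : B) : iota (a * b) = iota a * iota b := by rw [iota, iota, iota, ← map_mul]; rfl

theorem iota_add (a b : B) : iota (a + b) = iota a + iota b := by rw [iota, iota, iota, ← map_add]; rfl

theorem iota_smul (r : ℂ) (a : B) : iota (r • a) = r • iota a := by rw [iota, iota, ← map_smul]; rfl

theorem iota_one : iota (1 : B) = 1 := (map_one (seqMk B atTop) : _)

theorem iota_zero : iota (0 : B) = 0 := (map_zero (seqMk B atTop) : _)

theorem norm_iota_le (a : B) : ‖iota a‖ ≤ ‖a‖ :=
  (norm_seqMk_le _).trans ((BoundedContinuousFunction.norm_le (norm_nonneg a)).2 fun _ => le_rfl)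

theorem continuous_iota : Continuous (iota : B → SeqQuot B atTop) := by
  refine AddMonoidHomClass.continuous_of_bound
    (AddMonoidHom.mk' (iota : B → SeqQuot B atTop) iota_add) 1 fun a => ?_
  rw [one_mul]
  exact norm_iota_le a

theorem commute_iota_of_mem {z : SeqQuot B atTop} (hz : z ∈ centSub B atTop) (a : B) :
    Commute z (iota a) :=
  (((StarSubalgebra.mem_centralizer_iff ℂ).1 hz) (iota a) ⟨a, rfl⟩).1.symm

/-- The annihilator of `A₀` in the central sequence algebra. -/
def annIdeal (B : Type u) [CStarAlgebra B] (A₀ : Set B) : Ideal (centSub B atTop) where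
  carrier := {z | ∀ a ∈ A₀, (z : SeqQuot B atTop) * iota a = 0}
  zero_mem' a _ := by simp
  add_mem' {z w} hz hw a ha := by
    show ((z : SeqQuot B atTop) + w) * iota a = 0
    rw [add_mul, hz a ha, hw a ha, add_zero]
  smul_mem' r z hz a ha := by
    show (r : SeqQuot B atTop) * z * iota a = 0
    rw [mul_assoc, hz a ha, mul_zero]

theorem mem_annIdeal {A₀ : Set B} {z : centSub B atTop} :
    z ∈ annIdeal B A₀ ↔ ∀ a ∈ A₀, (z : SeqQuot B atTop) * iota a = 0 := Iff.rfl

instance annIdeal.isTwoSided (A₀ : Set B) : (annIdeal B A₀).IsTwoSided where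
  mul_mem_of_left {z} w hz a ha := by
    show (z : SeqQuot B atTop) * w * iota a = 0
    rw [mul_assoc, (commute_iota_of_mem w.2 a).eq, ← mul_assoc, hz a ha, zero_mul]

instance annIdeal.isClosed (A₀ : Set B) : IsClosed (annIdeal B A₀ : Set (centSub B atTop)) := by
  have e : (annIdeal B A₀ : Set (centSub B atTop)) =
      ⋂ a ∈ A₀, {z : centSub B atTop | (z : SeqQuot B atTop) * iota a = 0} := by
    ext z; simp [mem_annIdeal]
  rw [e]
  exact isClosed_biInter fun a _ => isClosed_eq (continuous_subtype_val.mul continuous_const)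
    continuous_const

/-- The central sequence algebra of the ideal. -/
def AnnQuot (B : Type u) [CStarAlgebra B] (A₀ : Set B) : Type u :=
  centSub B atTop ⧸ annIdeal B A₀

instance annQuotCStarAlgebra (B : Type u) [CStarAlgebra B] (A₀ : Set B) :
    CStarAlgebra (AnnQuot B A₀) :=
  Quot.instCStarAlgebra (annIdeal B A₀)

/-- The quotient map. -/
def annMk (B : Type u) [CStarAlgebra B] (A₀ : Set B) : centSub B atTop →⋆ₐ[ℂ] AnnQuot B A₀ :=
  quotStar (annIdeal B A₀)

theorem annMk_eq_zero {A₀ : Set B} {z : centSub B atTop} :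
    annMk B A₀ z = 0 ↔ ∀ a ∈ A₀, (z : SeqQuot B atTop) * iota a = 0 :=
  (quotStar_eq_zero (annIdeal B A₀)).trans mem_annIdeal

theorem annMk_surjective (A₀ : Set B) : Function.Surjective (annMk B A₀) :=
  quotStar_surjective (annIdeal B A₀)

theorem norm_annMk_le (A₀ : Set B) (z : centSub B atTop) : ‖annMk B A₀ z‖ ≤ ‖z‖ :=
  Submodule.Quotient.norm_mk_le (annIdeal B A₀) z

theorem exists_lift_norm_lt {A₀ : Set B} (x : AnnQuot B A₀) {ε : ℝ} (hε : 0 < ε) :
    ∃ z : centSub B atTop, annMk B A₀ z = x ∧ ‖z‖ < ‖x‖ + ε :=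
  Submodule.Quotient.norm_mk_lt (S := annIdeal B A₀) x hε

/-- The spectral order of the central sequence algebra of the ideal. -/
local instance annOrder (A₀ : Set B) : PartialOrder (AnnQuot B A₀) :=
  CStarAlgebra.spectralOrder _

local instance annOrdered (A₀ : Set B) : StarOrderedRing (AnnQuot B A₀) :=
  CStarAlgebra.spectralOrderedRing _

/-- A sequence vanishing against a dense part of the ideal is zero modulo the annihilator. -/
theorem annMk_eq_zero_of_dense {A₀ D : Set B} (hD : A₀ ⊆ closure D) {f : ℕ →ᵇ B}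
    (hf : seqMk B atTop f ∈ centSub B atTop)
    (h : ∀ d ∈ D, Tendsto (fun n => ‖f n * d‖) atTop (𝓝 0)) :
    annMk B A₀ ⟨_, hf⟩ = 0 := by
  rw [annMk_eq_zero]
  intro z hz
  set w := seqMk B atTop f with hw
  have hcl : IsClosed {z : B | w * iota z = 0} :=
    isClosed_eq ((continuous_const_mul w).comp continuous_iota) continuous_const
  refine hcl.closure_subset_iff.2 ?_ (hD hz)
  intro d hd
  show w * iota d = 0
  rw [hw, iota, ← map_mul, seqMk_eq_zero]
  exact h d hd

/-- Slots modulo the annihilator from a square-zero family modulo the annihilator. -/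
theorem exists_slots_ann [TopologicalSpace.SeparableSpace B] {A₀ : Set B} {N : ℕ} {δ : ℝ}
    {x : Fin N → AnnQuot B A₀} (hx : SqZeroFamily δ x) (hhalf : ∀ j, ‖x j‖ ≤ 1 / 2) (m : ℕ) :
    ∃ X : Fin m → Fin N → AnnQuot B A₀, IsSlots δ X := by
  classical
  obtain ⟨c, hc⟩ := exists_gap hx
  obtain ⟨c', rfl⟩ := annMk_surjective A₀ c
  have hlift : ∀ j, ∃ y : centSub B atTop, annMk B A₀ y = x j ∧ ‖y‖ ≤ 1 := by
    intro j
    obtain ⟨y, hy, hyn⟩ := exists_lift_norm_lt (x j) one_half_pos
    exact ⟨y, hy, hyn.le.trans (by linarith [hhalf j])⟩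
  choose y hy hy1 using hlift
  choose g hg hg1 using fun j => exists_contraction_rep (x := (y j : SeqQuot B atTop)) (hy1 j)
  obtain ⟨h, hh⟩ := seqMk_surjective (c' : SeqQuot B atTop)
  let G : Option (Fin N) → ℕ →ᵇ B := fun o => o.elim h g
  have hG : ∀ i, seqMk B atTop (G i) ∈ centSub B atTop := by
    rintro (_ | j)
    · show seqMk B atTop h ∈ _; rw [hh]; exact c'.2
    · show seqMk B atTop (g j) ∈ _; rw [hg]; exact (y j).2
  let rel : ℕ →ᵇ B := ∑ j, star (g j) * g j - algebraMap ℝ (ℕ →ᵇ B) δ - star h * h
  -- a countable dense part of the ideal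
  obtain ⟨D, hDA, hDc, hDd⟩ := (TopologicalSpace.IsSeparable.of_separableSpace A₀).exists_countable_dense_subset
  obtain ⟨b, hb⟩ := (hDc.insert (0 : B)).exists_eq_range (Set.insert_nonempty _ _)
  have hbA : ∀ p, b p = 0 ∨ b p ∈ A₀ := fun p => by
    rcases Set.mem_insert_iff.1 (hb ▸ Set.mem_range_self p) with h | h
    exacts [Or.inl h, Or.inr (hDA h)]
  have hsq : ∀ j p, seqMk B atTop (g j * g j) * iota (b p) = 0 := fun j p => by
    rcases hbA p with h | h
    · rw [h, iota_zero, mul_zero]
    · have e : annMk B A₀ (y j * y j) = 0 := by rw [map_mul, hy]; exact hx.sq j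
      rw [map_mul, hg]
      exact annMk_eq_zero.1 e _ h
  have hrel : ∀ p, seqMk B atTop rel * iota (b p) = 0 := fun p => by
    rcases hbA p with h' | h'
    · rw [h', iota_zero, mul_zero]
    · have e : annMk B A₀ (∑ j, star (y j) * y j - algebraMap ℝ (centSub B atTop) δ -
          star c' * c') = 0 := by
        simp only [map_sub, map_sum, map_mul, map_star, hy]
        rw [IsScalarTower.algebraMap_apply ℝ ℂ (centSub B atTop), AlgHomClass.commutes,
          ← IsScalarTower.algebraMap_apply ℝ ℂ (AnnQuot B A₀), hc, sub_self]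
      have e2 := annMk_eq_zero.1 e _ h'
      simp only [rel, map_sub, map_sum, map_mul, map_star, hg, hh]
      rw [IsScalarTower.algebraMap_apply ℝ ℂ (ℕ →ᵇ B), AlgHomClass.commutes]
      push_cast at e2
      exact e2
  obtain ⟨a, ha⟩ := TopologicalSpace.exists_dense_seq B
  let η : ℕ → ℝ := fun n => 1 / ((n : ℝ) + 1)
  have hη : ∀ n, 0 < η n := fun n => by positivity
  have hη0 : Tendsto η atTop (𝓝 0) := tendsto_one_div_add_atTop_nhds_zero_nat
  have hev : ∀ (f : ℕ →ᵇ B) p, seqMk B atTop f * iota (b p) = 0 →
      Tendsto (fun j => ‖f j * b p‖) atTop (𝓝 0) := fun f p hf => by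
    rw [iota, ← map_mul, seqMk_eq_zero] at hf
    exact hf
  have hP : ∀ n, ∀ᶠ j in atTop, ∀ p ∈ Set.Iic n,
      ‖rel j * b p‖ < η n ∧ ∀ i, ‖g i j * g i j * b p‖ < η n := fun n =>
    (Set.finite_Iic n).eventually_all.2 fun p _ =>
      ((hev rel p (hrel p)).eventually (gt_mem_nhds (hη n))).and (eventually_all.2 fun i =>
        (hev (g i * g i) p (hsq i p)).eventually (gt_mem_nhds (hη n)))
  choose k hk1 hk2 hk3 using fun n => exists_picks G hG _ (hP n) a n (hη n) m
  let κ : Fin m → C(ℕ, ℕ) := fun s => ⟨fun n => k n s, continuous_of_discreteTopology⟩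
  have lim : ∀ f : ℕ →ᵇ B, (∀ n, ‖f n‖ ≤ η n) → seqMk B atTop f = 0 := fun f hf =>
    seqMk_eq_zero.2 (squeeze_zero (fun n => norm_nonneg _) hf hη0)
  have hcent : ∀ s i, seqMk B atTop ((G i).compContinuous (κ s)) ∈ centSub B atTop := by
    intro s i
    rw [mem_centSub]
    intro z
    rw [Metric.tendsto_nhds]
    intro ε hε
    have hM : 0 < ε / (4 * (‖G i‖ + 1)) := by positivity
    obtain ⟨p, hp⟩ := ha.exists_dist_lt z hM
    filter_upwards [eventually_ge_atTop p, hη0.eventually (gt_mem_nhds (half_pos hε))] with n h1 h2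
    rw [Real.dist_eq, sub_zero, abs_of_nonneg (norm_nonneg _)]
    show ‖z * G i (k n s) - G i (k n s) * z‖ < ε
    set w := G i (k n s) with hw
    have hc2 := hk2 n s i p h1
    have hX : ‖w‖ ≤ ‖G i‖ + 1 := ((G i).norm_coe_le_norm _).trans (by linarith)
    rw [dist_eq_norm] at hp
    have key : z * w - w * z = ((z - a p) * w - w * (z - a p)) + (a p * w - w * a p) := by
      noncomm_ring
    have e1 : ‖(z - a p) * w‖ ≤ ε / (4 * (‖G i‖ + 1)) * (‖G i‖ + 1) :=
      (norm_mul_le _ _).trans (mul_le_mul hp.le hX (norm_nonneg _) hM.le)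
    have e2 : ‖w * (z - a p)‖ ≤ ε / (4 * (‖G i‖ + 1)) * (‖G i‖ + 1) := by
      refine (norm_mul_le _ _).trans ?_
      rw [mul_comm]
      exact mul_le_mul hp.le hX (norm_nonneg _) hM.le
    have e3 := norm_sub_le ((z - a p) * w) (w * (z - a p))
    have hval : ε / (4 * (‖G i‖ + 1)) * (‖G i‖ + 1) = ε / 4 := by field_simp
    rw [key]
    refine (norm_add_le _ _).trans_lt ?_
    linarith
  have hann : ∀ (f : ℕ →ᵇ B) (hf : seqMk B atTop f ∈ centSub B atTop),
      (∀ p, ∀ᶠ n in atTop, ‖f n * b p‖ ≤ η n) → annMk B A₀ ⟨_, hf⟩ = 0 := fun f hf hfb =>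
    annMk_eq_zero_of_dense hDd hf fun d hd => by
      obtain ⟨p, rfl⟩ : d ∈ Set.range b := hb ▸ Set.mem_insert_of_mem _ hd
      exact squeeze_zero' (Eventually.of_forall fun n => norm_nonneg _) (hfb p) hη0
  let K' : Fin m → Option (Fin N) → centSub B atTop := fun s i => ⟨_, hcent s i⟩
  let X : Fin m → Fin N → AnnQuot B A₀ := fun s j => annMk B A₀ (K' s (some j))
  refine ⟨X, fun s => ⟨fun j => ?_, fun j => ?_, ?_⟩, fun s t hst i j => ?_⟩
  · show annMk B A₀ (K' s (some j)) * annMk B A₀ (K' s (some j)) = 0
    rw [← map_mul]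
    have e : K' s (some j) * K' s (some j) =
        ⟨seqMk B atTop ((g j).compContinuous (κ s) * (g j).compContinuous (κ s)), by
          rw [map_mul]; exact mul_mem (hcent s (some j)) (hcent s (some j))⟩ :=
      Subtype.ext (map_mul (seqMk B atTop) _ _).symm
    rw [e]
    refine hann _ _ fun p => ?_
    filter_upwards [eventually_ge_atTop p] with n hn
    exact ((hk1 n s p hn).2 j).le
  · exact (norm_annMk_le A₀ _).trans ((norm_seqMk_le _).trans
      ((BoundedContinuousFunction.norm_le zero_le_one).2 fun n => hg1 j _))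
  · refine le_of_gap (c := annMk B A₀ (K' s none)) ?_
    rw [← sub_eq_zero, IsScalarTower.algebraMap_apply ℝ ℂ (AnnQuot B A₀),
      ← AlgHomClass.commutes (annMk B A₀)]
    simp only [X, ← map_star, ← map_mul, ← map_sum, ← map_sub]
    have e : ∑ j, star (K' s (some j)) * K' s (some j) -
          algebraMap ℂ (centSub B atTop) (algebraMap ℝ ℂ δ) - star (K' s none) * K' s none =
        ⟨seqMk B atTop (rel.compContinuous (κ s)), by
          have : seqMk B atTop (rel.compContinuous (κ s)) = (∑ j, star (K' s (some j)) * K' s (some j) -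
            algebraMap ℂ (centSub B atTop) (algebraMap ℝ ℂ δ) - star (K' s none) * K' s none :
              centSub B atTop) := by
            push_cast
            show _ = ∑ j, star (seqMk B atTop ((g j).compContinuous (κ s))) *
              seqMk B atTop ((g j).compContinuous (κ s)) -
                algebraMap ℂ (SeqQuot B atTop) (algebraMap ℝ ℂ δ) -
                star (seqMk B atTop (h.compContinuous (κ s))) *
                  seqMk B atTop (h.compContinuous (κ s))
            rw [← AlgHomClass.commutes (seqMk B atTop)]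
            simp only [← map_star, ← map_mul, ← map_sum, ← map_sub]
            congr 1
            ext n
            simp [rel, BoundedContinuousFunction.coe_sum, Finset.sum_apply]
          rw [this]; exact SetLike.coe_mem _⟩ := by
      refine Subtype.ext ?_
      push_cast
      show ∑ j, star (seqMk B atTop ((g j).compContinuous (κ s))) *
              seqMk B atTop ((g j).compContinuous (κ s)) -
                algebraMap ℂ (SeqQuot B atTop) (algebraMap ℝ ℂ δ) -
                star (seqMk B atTop (h.compContinuous (κ s))) *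
                  seqMk B atTop (h.compContinuous (κ s)) = _
      rw [← AlgHomClass.commutes (seqMk B atTop)]
      simp only [← map_star, ← map_mul, ← map_sum, ← map_sub]
      congr 1
      ext n
      simp [rel, BoundedContinuousFunction.coe_sum, Finset.sum_apply]
    rw [e]
    refine hann _ _ fun p => ?_
    filter_upwards [eventually_ge_atTop p] with n hn
    exact (hk1 n s p hn).1.le
  · have main : ∀ s t, t < s → ∀ i l,
        Commute (X t l) (X s i) ∧ Commute (star (X t l)) (X s i) := by
      intro s t hts i l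
      have h1 : Commute (K' t (some l)) (K' s (some i)) := Subtype.ext (by
        show seqMk B atTop ((g l).compContinuous (κ t)) * seqMk B atTop ((g i).compContinuous (κ s))
          = seqMk B atTop ((g i).compContinuous (κ s)) * seqMk B atTop ((g l).compContinuous (κ t))
        rw [← map_mul, ← map_mul, ← sub_eq_zero, ← map_sub]
        exact lim _ fun n => ((hk3 n s t hts (some i) (some l)).1).le)
      have h2 : Commute (star (K' t (some l))) (K' s (some i)) := Subtype.ext (by
        show star (seqMk B atTop ((g l).compContinuous (κ t))) *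
            seqMk B atTop ((g i).compContinuous (κ s))
          = seqMk B atTop ((g i).compContinuous (κ s)) *
            star (seqMk B atTop ((g l).compContinuous (κ t)))
        rw [← map_star, ← map_mul, ← map_mul, ← sub_eq_zero, ← map_sub]
        exact lim _ fun n => ((hk3 n s t hts (some i) (some l)).2).le)
      refine ⟨h1.map (annMk B A₀), ?_⟩
      simp only [X, ← map_star]
      exact h2.map (annMk B A₀)
    rcases lt_or_gt_of_ne hst with h | h
    · exact ⟨(main t s h j i).1, by simpa using ((main t s h j i).2).star_star⟩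
    · exact ⟨(main s t h i j).1.symm, (main s t h i j).2.symm⟩

end Vale.Agent.P133.NucDimGen
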