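import Vale.Agent.P133.NucDimGen.Defs
import Vale.Agent.P133.NucDim.CentralDefs
import Vale.Agent.P133.FinDim.Transfer
import Vale.Agent.P101.Defs

/-!
P133, finite nuclear dimension without unit and separability: the statements of the parts.

`B` is unital and `A₀` a closed ideal in it; in the application `B` is the unitization and `A₀`
the algebra.
-/

noncomputable section

namespace Vale.Agent.P133.NucDimGen

open Vale.Agent.P101 Vale.Agent.P133.FinDim Filter Topology

universe u

variable {B : Type u} [CStarAlgebra B] [PartialOrder B] [StarOrderedRing B]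

/-- A decomposition in `d + 1` colours with images in the ideal `A₀`; `p l a` is the image of `a`
through the block `l`, and `e` stands in for the unit. -/
structure Colours (A₀ : Set B) (d : ℕ) where
  /-- The number of blocks. -/
  L : ℕ
  /-- The colours. -/
  col : Fin L → Fin (d + 1)
  /-- The sizes. -/
  size : Fin L → ℕ
  /-- The images of matrix units. -/
  U : ∀ l, NucDim.Units (size l) B
  /-- The composed maps. -/
  p : Fin L → B → B
  /-- The substitute for the unit. -/
  e : B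
  orth : ∀ l l', col l = col l' → l ≠ l' → (U l).H * (U l').H = 0
  H_mem : ∀ l, (U l).H ∈ A₀
  rep : ∀ l (a : B), a ∈ A₀ → 0 ≤ a → a ≤ 1 →
    ∃ w : Matrix (Fin (size l)) (Fin (size l)) ℂ, p l a = (U l).app (star w * w) ∧
      0 ≤ p l a ∧ p l a ≤ (U l).H
  e_mem : e ∈ A₀
  e_nonneg : 0 ≤ e
  e_le_one : e ≤ 1

/-- The part of colour `c` applied to `a`. -/
def Colours.eta {A₀ : Set B} {d : ℕ} (D : Colours A₀ d) (c : Fin (d + 1)) (a : B) : B :=
  ∑ l ∈ Finset.univ.filter (fun l => D.col l = c), D.p l a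

/-- A dense family on which the colours of a sequence of decompositions almost multiply. -/
def IsApproximation (A₀ : Set B) {d : ℕ} (S : Set B) (D : ℕ → Colours A₀ d) : Prop :=
  (∀ a ∈ S, a ∈ A₀ ∧ 0 ≤ a ∧ a ≤ 1) ∧ A₀ ⊆ closure (Submodule.span ℂ S : Set B) ∧
    ∀ a ∈ S,
      (∀ c, Tendsto (fun n => ‖(D n).eta c (D n).e * a - (D n).eta c a‖) atTop (𝓝 0) ∧
        Tendsto (fun n => ‖a * (D n).eta c (D n).e - (D n).eta c a‖) atTop (𝓝 0)) ∧
      Tendsto (fun n => ‖∑ c, (D n).eta c a - a‖) atTop (𝓝 0)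

/-- A central dimension drop, with relations modulo the annihilator of `A₀`. -/
def HasDropModAnn (B : Type u) [CStarAlgebra B] (A₀ : Set B) : Prop :=
  ∃ y v : ℕ → B, IsCentralSeq B atTop y ∧ IsCentralSeq B atTop v ∧
    ∀ a ∈ A₀, Tendsto (fun n => ‖y n * y n * a‖) atTop (𝓝 0) ∧
      Tendsto (fun n => ‖(star (v n) * v n - (1 - star (y n) * y n - y n * star (y n))) * a‖)
        atTop (𝓝 0) ∧
      Tendsto (fun n => ‖(y n * star (y n) * v n - v n) * a‖) atTop (𝓝 0)

/-- The decompositions of a separable algebra, seen in its unitization. -/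
def ApproxStatement : Prop :=
  ∀ (A : Type u) [NonUnitalCStarAlgebra A] [PartialOrder A] [StarOrderedRing A]
    [TopologicalSpace.SeparableSpace A], HasFiniteNuclearDimension A →
      ∃ (d : ℕ) (S : Set (Unitization ℂ A)) (D : ℕ → Colours (base A) d),
        IsApproximation (base A) S D

/-- Colours and weak pure infiniteness give the drop. -/
def CentralStatement : Prop :=
  ∀ (B : Type u) [CStarAlgebra B] [PartialOrder B] [StarOrderedRing B]
    [TopologicalSpace.SeparableSpace B] (A₀ : Set B), IsClosedIdeal A₀ →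
      (∀ b : B, ∃ r : ℂ, b - r • 1 ∈ A₀) → ∀ (n : ℕ), 1 ≤ n → AmpPI A₀ n →
        ∀ (d : ℕ) (S : Set B) (D : ℕ → Colours A₀ d), IsApproximation A₀ S D → HasDropModAnn B A₀

/-- The drop turns weak into strong pure infiniteness. -/
def AbsorbStatement : Prop :=
  ∀ (B : Type u) [CStarAlgebra B] [PartialOrder B] [StarOrderedRing B] (A₀ : Set B),
    IsClosedIdeal A₀ → ∀ (n : ℕ), 1 ≤ n → AmpPI A₀ n → HasDropModAnn B A₀ →
      ∀ x y : B, x ∈ A₀ → y ∈ A₀ → 0 ≤ x → 0 ≤ y → ∀ ε : ℝ, 0 < ε →
        ∃ s t : B, s ∈ A₀ ∧ t ∈ A₀ ∧ ‖star s * (x * x) * s - x * x‖ < ε ∧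
          ‖star t * (y * y) * t - y * y‖ < ε ∧ ‖star s * x * y * t‖ < ε

/-- Passing to a separable subalgebra. -/
def ReductionStatement : Prop :=
  ∀ (A : Type u) [NonUnitalCStarAlgebra A] [PartialOrder A] [StarOrderedRing A],
    HasFiniteNuclearDimension A → IsWeaklyPurelyInfinite A → ∀ x y : A, 0 ≤ x → 0 ≤ y →
      ∃ (A' : Type u) (_ : NonUnitalCStarAlgebra A') (_ : PartialOrder A')
        (_ : StarOrderedRing A') (_ : TopologicalSpace.SeparableSpace A')
        (f : A' →⋆ₙₐ[ℂ] A) (x' y' : A'),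
        Function.Injective f ∧ 0 ≤ x' ∧ f x' = x ∧ 0 ≤ y' ∧ f y' = y ∧
          HasFiniteNuclearDimension A' ∧ IsWeaklyPurelyInfinite A'

end Vale.Agent.P133.NucDimGen
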